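import Vale.Agent.P215.H580.Blocks

/-!
# Loops in the base blocks are null-homotopic in the thickening
-/

noncomputable section

namespace Vale.Agent.P215.H580

open Set Topology unitInterval Vale.Agent.P215.H562 Vale.Agent.P215.H788
  Vale.Agent.P215.H788.CappedGrope

variable (G : CappedGrope)

/-- The vertical strip number `n` of the plane region, minus the hole number `n`. -/
def stripP (n : ℕ) : Set (ℝ × ℝ) :=
  {p | p.1 ∈ Icc (4 * (n : ℝ)) (4 * n + 4) ∧ p.2 ∈ Icc 0 G.L ∧ p ∉ hole n}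

/-- The part to the left of the line `4 n` of the plane region. -/
def leftP (g n : ℕ) : Set (ℝ × ℝ) :=
  {p | (p ∈ Sq G.L ∧ ∀ j < g, p ∉ hole j) ∧ p.1 ≤ 4 * (n : ℝ)}

/-- The part to the right of the line `4 g` of the plane region. -/
def rightP (g : ℕ) : Set (ℝ × ℝ) :=
  {p | p.1 ∈ Icc (4 * (g : ℝ)) G.L ∧ p.2 ∈ Icc 0 G.L}

/-- The block over a plane region. -/
def cyl (A : Set (ℝ × ℝ)) : Set E := A ×ˢ (({0} : Set (ℝ × ℝ)) ×ˢ Fib)

theorem cyl_mono {A B : Set (ℝ × ℝ)} (h : A ⊆ B) : cyl A ⊆ cyl B :=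
  fun _ hx => ⟨h hx.1, hx.2⟩

theorem cyl_union (A B : Set (ℝ × ℝ)) : cyl A ∪ cyl B = cyl (A ∪ B) := by
  unfold cyl
  rw [union_prod]

theorem cyl_inter (A B : Set (ℝ × ℝ)) : cyl A ∩ cyl B = cyl (A ∩ B) := by
  unfold cyl
  rw [prod_inter_prod, inter_self]

theorem isPathConnected_cyl {A : Set (ℝ × ℝ)} (h : IsPathConnected A) :
    IsPathConnected (cyl A) :=
  h.prod ((isPathConnected_singleton _).prod isPathConnected_fib)

theorem not_hole_of_strip {n j : ℕ} {p : ℝ × ℝ} (hp : p.1 ∈ Icc (4 * (n : ℝ)) (4 * n + 4))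
    (hn : p ∉ hole n) : p ∉ hole j := by
  rintro ⟨⟨a, b⟩, c⟩
  rcases lt_trichotomy j n with h | h | h
  · have : (j : ℝ) + 1 ≤ n := by exact_mod_cast h
    linarith [hp.1, hp.2]
  · subst h
    exact hn ⟨⟨a, b⟩, c⟩
  · have : (n : ℝ) + 1 ≤ j := by exact_mod_cast h
    linarith [hp.1, hp.2]

theorem four_mul_le_L {s n : ℕ} (hn : n < G.genus s) : 4 * (n : ℝ) + 4 ≤ G.L := hole_le_L G hn

theorem strip_subset {s n : ℕ} (hn : n < G.genus s) :
    stripP G n ⊆ {p | p ∈ Sq G.L ∧ ∀ j < G.genus s, p ∉ hole j} := by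
  rintro p ⟨h1, h2, h3⟩
  have := four_mul_le_L G hn
  have h0 : (0 : ℝ) ≤ n := Nat.cast_nonneg n
  exact ⟨⟨⟨by linarith [h1.1], by linarith [h1.2]⟩, h2⟩, fun j _ => not_hole_of_strip h1 h3⟩

theorem leftP_succ {s n : ℕ} (hn : n < G.genus s) :
    leftP G (G.genus s) n ∪ stripP G n = leftP G (G.genus s) (n + 1) := by
  have hL := four_mul_le_L G hn
  ext p
  constructor
  · rintro (h | h)
    · refine ⟨h.1, ?_⟩
      have := h.2
      push_cast
      linarith
    · refine ⟨strip_subset G hn h, ?_⟩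
      have := h.1.2
      push_cast
      linarith
  · rintro ⟨h1, h2⟩
    push_cast at h2
    rcases le_total p.1 (4 * (n : ℝ)) with h | h
    · exact Or.inl ⟨h1, h⟩
    · exact Or.inr ⟨⟨h, by linarith⟩, h1.1.2, h1.2 n hn⟩

theorem line_not_hole {n j : ℕ} {p : ℝ × ℝ} (hp : p.1 = 4 * (n : ℝ)) : p ∉ hole j := by
  rintro ⟨⟨a, b⟩, -⟩
  rcases lt_or_ge j n with h | h
  · have : (j : ℝ) + 1 ≤ n := by exact_mod_cast h
    linarith
  · have : (n : ℝ) ≤ j := by exact_mod_cast h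
    linarith

theorem leftP_inter {s n : ℕ} (hn : n < G.genus s) :
    leftP G (G.genus s) n ∩ stripP G n = ({4 * (n : ℝ)} : Set ℝ) ×ˢ Icc 0 G.L := by
  have hL := four_mul_le_L G hn
  have h0 : (0 : ℝ) ≤ n := Nat.cast_nonneg n
  ext p
  constructor
  · rintro ⟨h1, h2⟩
    exact ⟨le_antisymm h1.2 h2.1.1, h2.2.1⟩
  · rintro ⟨h1, h2⟩
    change p.1 = _ at h1
    refine ⟨⟨⟨⟨⟨by linarith, by linarith⟩, h2⟩, fun j _ => line_not_hole h1⟩, h1.le⟩,
      ⟨h1.ge, by linarith⟩, h2, line_not_hole h1⟩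

theorem leftP_zero {g : ℕ} : leftP G g 0 = ({0} : Set ℝ) ×ˢ Icc 0 G.L := by
  have hL := four_le_L G
  ext p
  constructor
  · rintro ⟨⟨h1, h2⟩, h3⟩
    exact ⟨le_antisymm (by simpa using h3) h1.1.1, h1.2⟩
  · rintro ⟨h1, h2⟩
    change p.1 = 0 at h1
    refine ⟨⟨⟨⟨h1.ge, by linarith⟩, h2⟩, fun j _ => line_not_hole (n := 0) (by simpa using h1)⟩, ?_⟩
    simpa using h1.le

theorem leftP_last (s : ℕ) :
    leftP G (G.genus s) (G.genus s) ∪ rightP G (G.genus s) =
      {p | p ∈ Sq G.L ∧ ∀ j < G.genus s, p ∉ hole j} := by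
  have h0 : (0 : ℝ) ≤ (G.genus s : ℕ) := Nat.cast_nonneg _
  ext p
  constructor
  · rintro (h | h)
    · exact h.1
    · refine ⟨⟨⟨by linarith [h.1.1], h.1.2⟩, h.2⟩, fun j hj hh => ?_⟩
      have : (j : ℝ) + 1 ≤ (G.genus s : ℕ) := by exact_mod_cast hj
      linarith [hh.1.2, h.1.1]
  · rintro ⟨h1, h2⟩
    rcases le_total p.1 (4 * ((G.genus s : ℕ) : ℝ)) with h | h
    · exact Or.inl ⟨⟨h1, h2⟩, h⟩
    · exact Or.inr ⟨⟨h, h1.1.2⟩, h1.2⟩

theorem genus_le_L (s : ℕ) : 4 * ((G.genus s : ℕ) : ℝ) ≤ G.L := by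
  rcases Nat.eq_zero_or_pos (G.genus s) with h | h
  · rw [h]
    have := four_le_L G
    push_cast
    linarith
  · have := hole_le_L G (s := s) (j := G.genus s - 1) (by omega)
    have h2 : ((G.genus s - 1 : ℕ) : ℝ) + 1 = (G.genus s : ℕ) := by
      have : G.genus s - 1 + 1 = G.genus s := by omega
      exact_mod_cast this
    linarith

theorem leftP_last_inter (s : ℕ) :
    leftP G (G.genus s) (G.genus s) ∩ rightP G (G.genus s) =
      ({4 * ((G.genus s : ℕ) : ℝ)} : Set ℝ) ×ˢ Icc 0 G.L := by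
  have h0 : (0 : ℝ) ≤ (G.genus s : ℕ) := Nat.cast_nonneg _
  have hL := genus_le_L G s
  ext p
  constructor
  · rintro ⟨h1, h2⟩
    exact ⟨le_antisymm h1.2 h2.1.1, h2.2⟩
  · rintro ⟨h1, h2⟩
    change p.1 = _ at h1
    exact ⟨⟨⟨⟨⟨by linarith, by linarith⟩, h2⟩, fun j _ => line_not_hole h1⟩, h1.le⟩,
      ⟨h1.ge, by linarith⟩, h2⟩

theorem base_eq {s : ℕ} (hs : 0 < G.genus s) :
    cyl {p | p ∈ Sq G.L ∧ ∀ j < G.genus s, p ∉ hole j} = G.region (.base s) := by
  ext x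
  exact ⟨fun h => ⟨hs, h⟩, fun h => h.2⟩

theorem isPathConnected_line (a : ℝ) : IsPathConnected (({a} : Set ℝ) ×ˢ Icc 0 G.L) := by
  have := four_le_L G
  exact ((convex_singleton a).prod (convex_Icc _ _)).isPathConnected
    ⟨(a, 0), rfl, le_rfl, by linarith⟩

theorem isPathConnected_rect {a b c d : ℝ} (hab : a ≤ b) (hcd : c ≤ d) :
    IsPathConnected (Icc a b ×ˢ Icc c d) :=
  ((convex_Icc _ _).prod (convex_Icc _ _)).isPathConnected
    ⟨(a, c), ⟨le_rfl, hab⟩, ⟨le_rfl, hcd⟩⟩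

theorem isPathConnected_strip (n : ℕ) : IsPathConnected (stripP G n) := by
  have hL := four_le_L G
  set a : ℝ := 4 * (n : ℝ) with ha
  have h1 := isPathConnected_rect (a := a) (b := a + 1) (c := 0) (d := G.L) (by linarith)
    (by linarith)
  have h2 := isPathConnected_rect (a := a) (b := a + 4) (c := 0) (d := 1) (by linarith)
    (by linarith)
  have h3 := isPathConnected_rect (a := a + 3) (b := a + 4) (c := 0) (d := G.L) (by linarith)
    (by linarith)
  have h4 := isPathConnected_rect (a := a) (b := a + 4) (c := 3) (d := G.L) (by linarith)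
    (by linarith)
  have k1 := h1.union h2 ⟨(a, 0), ⟨⟨le_rfl, by linarith⟩, ⟨le_rfl, by linarith⟩⟩,
    ⟨⟨le_rfl, by linarith⟩, ⟨le_rfl, by linarith⟩⟩⟩
  have k2 := k1.union h3 ⟨(a + 4, 0), Or.inr ⟨⟨by linarith, le_rfl⟩, ⟨le_rfl, by linarith⟩⟩,
    ⟨⟨by linarith, by linarith⟩, ⟨le_rfl, by linarith⟩⟩⟩
  have k3 := k2.union h4 ⟨(a, 3), Or.inl (Or.inl ⟨⟨le_rfl, by linarith⟩, ⟨by linarith,
    by linarith⟩⟩), ⟨⟨le_rfl, by linarith⟩, ⟨le_rfl, by linarith⟩⟩⟩
  have e : stripP G n = Icc a (a + 1) ×ˢ Icc 0 G.L ∪ Icc a (a + 4) ×ˢ Icc 0 1 ∪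
      Icc (a + 3) (a + 4) ×ˢ Icc 0 G.L ∪ Icc a (a + 4) ×ˢ Icc 3 G.L := by
    ext ⟨p, q⟩
    simp only [stripP, hole, mem_ofPred_eq, mem_union, mem_prod, mem_Icc, mem_Ioo, ← ha, not_and_or,
      not_lt]
    constructor
    · rintro ⟨⟨h1, h2⟩, ⟨h3, h4⟩, (h | h) | h | h⟩
      · exact Or.inl (Or.inl (Or.inl ⟨⟨h1, h⟩, h3, h4⟩))
      · exact Or.inl (Or.inr ⟨⟨h, h2⟩, h3, h4⟩)
      · exact Or.inl (Or.inl (Or.inr ⟨⟨h1, h2⟩, h3, h⟩))
      · exact Or.inr ⟨⟨h1, h2⟩, h, h4⟩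
    · rintro (((h | h) | h) | h)
      · exact ⟨⟨h.1.1, by linarith⟩, h.2, Or.inl (Or.inl h.1.2)⟩
      · exact ⟨h.1, ⟨h.2.1, by linarith⟩, Or.inr (Or.inl h.2.2)⟩
      · exact ⟨⟨by linarith, h.1.2⟩, h.2, Or.inl (Or.inr h.1.1)⟩
      · exact ⟨h.1, ⟨by linarith, h.2.2⟩, Or.inr (Or.inr h.2.1)⟩
  rw [e]
  exact k3

/-! ### The radial retraction of a strip -/

/-- The centre of the hole number `n`. -/
def ctr (n : ℕ) : ℝ × ℝ := (4 * (n : ℝ) + 2, 2)

theorem one_le_norm {n : ℕ} {p : ℝ × ℝ} (hp : p ∉ hole n) : 1 ≤ ‖p - ctr n‖ := by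
  by_contra h
  rw [not_le, Prod.norm_def, sup_lt_iff, Real.norm_eq_abs, Real.norm_eq_abs, abs_lt, abs_lt] at h
  obtain ⟨⟨a, b⟩, c, d⟩ := h
  simp only [ctr, Prod.fst_sub, Prod.snd_sub] at a b c d
  exact hp ⟨⟨by linarith, by linarith⟩, by linarith, by linarith⟩

theorem scale_mem {n : ℕ} {p : ℝ × ℝ} (hp : p ∈ stripP G n) {m : ℝ} (h0 : 0 ≤ m) (h1 : m ≤ 1)
    (h2 : 1 ≤ m * ‖p - ctr n‖) : ctr n + m • (p - ctr n) ∈ stripP G n := by
  have hL := four_le_L G
  obtain ⟨⟨a, b⟩, ⟨c, d⟩, hh⟩ := hp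
  have e : ∀ q : ℝ × ℝ, ctr n + m • (q - ctr n) =
      (4 * (n : ℝ) + 2 + m * (q.1 - (4 * n + 2)), 2 + m * (q.2 - 2)) := fun q => rfl
  refine ⟨⟨?_, ?_⟩, ⟨?_, ?_⟩, ?_⟩
  · rw [e]; change 4 * (n : ℝ) ≤ 4 * n + 2 + m * (p.1 - (4 * n + 2))
    nlinarith
  · rw [e]; change 4 * (n : ℝ) + 2 + m * (p.1 - (4 * n + 2)) ≤ 4 * n + 4
    nlinarith
  · rw [e]; change (0 : ℝ) ≤ 2 + m * (p.2 - 2)
    nlinarith
  · rw [e]; change 2 + m * (p.2 - 2) ≤ G.L
    nlinarith
  · rintro ⟨⟨a', b'⟩, c', d'⟩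
    rw [e] at a' b' c' d'
    have : ‖m • (p - ctr n)‖ < 1 := by
      rw [Prod.norm_def, sup_lt_iff, Real.norm_eq_abs, Real.norm_eq_abs, abs_lt, abs_lt]
      change ((-1 : ℝ) < m * (p.1 - (4 * n + 2)) ∧ m * (p.1 - (4 * n + 2)) < 1) ∧
        ((-1 : ℝ) < m * (p.2 - 2) ∧ m * (p.2 - 2) < 1)
      exact ⟨⟨by linarith, by linarith⟩, by linarith, by linarith⟩
    rw [norm_smul, Real.norm_eq_abs, abs_of_nonneg h0] at this
    linarith

theorem bdFib_of_norm {y : ℝ × ℝ} (hy : ‖y‖ = 1) : (2 + y.1, 2 + y.2) ∈ bdFib := by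
  rw [Prod.norm_def, Real.norm_eq_abs, Real.norm_eq_abs] at hy
  have h1 : |y.1| ≤ 1 := hy ▸ le_sup_left
  have h2 : |y.2| ≤ 1 := hy ▸ le_sup_right
  rw [abs_le] at h1 h2
  refine ⟨⟨⟨?_, ?_⟩, ⟨?_, ?_⟩⟩, ?_⟩
  · change (1 : ℝ) ≤ 2 + y.1; linarith
  · change 2 + y.1 ≤ (3 : ℝ); linarith
  · change (1 : ℝ) ≤ 2 + y.2; linarith
  · change 2 + y.2 ≤ (3 : ℝ); linarith
  · change 2 + y.1 = 1 ∨ 2 + y.1 = 3 ∨ 2 + y.2 = 1 ∨ 2 + y.2 = 3
    rcases max_choice |y.1| |y.2| with h | h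
    · have h3 : |y.1| = 1 := h.symm.trans hy
      rcases abs_eq (zero_le_one' ℝ) |>.1 h3 with h | h <;> rw [h] <;> norm_num
    · have h3 : |y.2| = 1 := h.symm.trans hy
      rcases abs_eq (zero_le_one' ℝ) |>.1 h3 with h | h <;> rw [h] <;> norm_num

theorem hole_handle_mem {s n : ℕ} (hn : n < G.genus s) {a v : ℝ × ℝ} (ha : a ∈ bdFib)
    (hv : v ∈ Fib) : (((G.L, a.2), (G.L, a.1), v) : E) ∈ G.region (.handle s n) := by
  have hL := four_le_L G
  obtain ⟨⟨⟨a1, a2⟩, a3, a4⟩, h⟩ := ha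
  refine ⟨hn, ⟨⟨⟨⟨?_, ?_⟩, ⟨?_, ?_⟩⟩, Or.inr (Or.inl rfl)⟩, ⟨⟨⟨?_, ?_⟩, ⟨?_, ?_⟩⟩,
    Or.inr (Or.inl rfl)⟩, ?_⟩, hv⟩ <;> dsimp only <;> try linarith
  rintro ⟨-, -, ⟨b1, b2⟩, b3, b4⟩
  rcases h with h | h | h | h <;> linarith

theorem piTriv_strip {s n : ℕ} (hn : n < G.genus s) (h : PiTriv (blk G (.handle s n)))
    (hsub : cyl (stripP G n) ⊆ G.region (.base s)) :
    PiTriv ((blk G (.base s)).comp (incl hsub)) := by
  -- the inverse of the distance to the centre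
  obtain ⟨r, hr⟩ : ∃ r : C(cyl (stripP G n), ℝ), ∀ x, r x = ‖x.1.1 - ctr n‖⁻¹ := by
    refine ⟨⟨fun x => ‖x.1.1 - ctr n‖⁻¹, ?_⟩, fun x => rfl⟩
    refine Continuous.inv₀ (by fun_prop) fun x => ?_
    have := one_le_norm x.2.1.2.2
    linarith
  have hr0 : ∀ x, 0 ≤ r x := fun x => by rw [hr]; positivity
  have hr1 : ∀ x, r x ≤ 1 := fun x => by
    rw [hr]; exact inv_le_one_of_one_le₀ (one_le_norm x.2.1.2.2)
  have hrn : ∀ x, r x * ‖x.1.1 - ctr n‖ = 1 := fun x => by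
    rw [hr]
    have := one_le_norm x.2.1.2.2
    exact inv_mul_cancel₀ (by linarith)
  have hK : ∀ q : I × cyl (stripP G n),
      ctr n + ((1 - (q.1 : ℝ)) + q.1 * r q.2) • (q.2.1.1 - ctr n) ∈ stripP G n := by
    rintro ⟨t, x⟩
    have t0 := t.2.1
    have t1 := t.2.2
    refine scale_mem G x.2.1 ?_ ?_ ?_
    · have := mul_nonneg t0 (hr0 x)
      dsimp only
      linarith
    · have := mul_le_mul_of_nonneg_left (hr1 x) t0
      dsimp only
      linarith
    · have h1 := one_le_norm x.2.1.2.2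
      have h2 := hrn x
      dsimp only
      have h3 : ((1 - (t : ℝ)) + t * r x) * ‖x.1.1 - ctr n‖ =
          (1 - (t : ℝ)) * ‖x.1.1 - ctr n‖ + t * (r x * ‖x.1.1 - ctr n‖) := by ring
      rw [h3, h2]
      nlinarith
  have hb : ∀ x : cyl (stripP G n),
      (2 + (r x • (x.1.1 - ctr n)).1, 2 + (r x • (x.1.1 - ctr n)).2) ∈ bdFib := fun x => by
    refine bdFib_of_norm ?_
    rw [norm_smul, Real.norm_eq_abs, abs_of_nonneg (hr0 x)]
    exact hrn x
  let k : C(cyl (stripP G n), G.region (.handle s n)) :=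
    ⟨fun x => ⟨((G.L, 2 + (r x • (x.1.1 - ctr n)).2), (G.L, 2 + (r x • (x.1.1 - ctr n)).1),
      x.1.2.2), hole_handle_mem G hn (hb x) x.2.2.2⟩, by fun_prop⟩
  refine (h.comp k).of_homotopy
    ⟨⟨fun q => blk G (.base s) ⟨(ctr n + ((1 - (q.1 : ℝ)) + q.1 * r q.2) • (q.2.1.1 - ctr n), 0,
      q.2.1.2.2), hsub ⟨hK q, rfl, q.2.2.2.2⟩⟩, by fun_prop⟩, fun x => ?_, fun x => ?_⟩
  · change blk G (.base s) _ = blk G (.base s) _
    congr 1
    refine Subtype.ext ?_
    have h0 : x.1.2.1 = 0 := x.2.2.1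
    have h2 : ctr n + (1 - ((0 : I) : ℝ) + ((0 : I) : ℝ) * r x) • (x.1.1 - ctr n) = x.1.1 := by
      simp
    change ((_, _, _) : E) = x.1
    rw [h2, ← h0]
  · have hm : (((4 * (n : ℝ) + (2 + (r x • (x.1.1 - ctr n)).1), 2 + (r x • (x.1.1 - ctr n)).2), 0,
        x.1.2.2) : E) ∈ G.region (.base s) := by
      refine hsub ⟨?_, rfl, x.2.2.2⟩
      have := hK (1, x)
      convert this using 1
      refine Prod.ext ?_ ?_
      · simp [ctr]; ring
      · simp [ctr]
    have hg := blk_eq_of_glue G hm (hole_handle_mem G hn (hb x) x.2.2.2)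
      (Glue.hole s n _ x.1.2.2 (hb x))
    refine Eq.trans ?_ hg
    change blk G (.base s) _ = blk G (.base s) _
    congr 1
    refine Subtype.ext ?_
    refine Prod.ext (Prod.ext ?_ ?_) rfl
    · simp [ctr]; ring
    · simp [ctr]

/-! ### The base -/

theorem poly_strip (n : ℕ) : Poly fun x : E => x ∈ cyl (stripP G n) :=
  (((Poly.icc aff1 _ _).and ((Poly.icc aff2 _ _).and (poly_hole n))).and
    (poly_zero.and poly_fib)).congr fun _ => Iff.rfl

theorem poly_left (g n : ℕ) : Poly fun x : E => x ∈ cyl (leftP G g n) :=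
  ((((poly_sq1 G.L).and (Poly.ball poly_hole g)).and (Poly.le aff1 (.const _))).and
    (poly_zero.and poly_fib)).congr fun _ => Iff.rfl

theorem poly_right (g : ℕ) : Poly fun x : E => x ∈ cyl (rightP G g) :=
  (((Poly.icc aff1 _ _).and (Poly.icc aff2 _ _)).and
    (poly_zero.and poly_fib)).congr fun _ => Iff.rfl

theorem isPathConnected_left (s : ℕ) : ∀ n ≤ G.genus s,
    IsPathConnected (leftP G (G.genus s) n) := by
  intro n
  induction n with
  | zero =>
    intro _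
    rw [leftP_zero]
    exact isPathConnected_line G 0
  | succ n ih =>
    intro hn
    rw [← leftP_succ G (Nat.lt_of_succ_le hn)]
    refine (ih (by omega)).union (isPathConnected_strip G n) ?_
    rw [leftP_inter G (Nat.lt_of_succ_le hn)]
    exact (isPathConnected_line G _).nonempty

theorem isPathConnected_right (s : ℕ) : IsPathConnected (rightP G (G.genus s)) := by
  have := four_le_L G
  exact isPathConnected_rect (genus_le_L G s) (by linarith)

theorem left_subset (g n : ℕ) :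
    leftP G g n ⊆ {p | p ∈ Sq G.L ∧ ∀ j < g, p ∉ hole j} := fun _ h => h.1

theorem piTriv_left {s : ℕ} (hs : 0 < G.genus s)
    (h : ∀ j < G.genus s, PiTriv (blk G (.handle s j))) :
    ∀ n ≤ G.genus s, PiTriv ((blk G (.base s)).comp
      (incl ((cyl_mono (left_subset G (G.genus s) n)).trans (base_eq G hs).subset))) := by
  intro n
  induction n with
  | zero =>
    intro _
    have e : cyl (leftP G (G.genus s) 0) =
      (({0} : Set ℝ) ×ˢ Icc 0 G.L) ×ˢ (({0} : Set (ℝ × ℝ)) ×ˢ Fib) := by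
      rw [leftP_zero]; rfl
    refine PiTriv.of_convex ?_ (isPathConnected_cyl (isPathConnected_left G s 0
      (Nat.zero_le _))).nonempty _
    rw [e]
    exact ((convex_singleton _).prod (convex_Icc _ _)).prod ((convex_singleton _).prod convex_fib)
  | succ n ih =>
    intro hn
    have hn' := Nat.lt_of_succ_le hn
    have e : cyl (leftP G (G.genus s) n) ∪ cyl (stripP G n) = cyl (leftP G (G.genus s) (n + 1)) := by
      rw [cyl_union, leftP_succ G hn']
    refine piTriv_union_poly (slsc_thickening G) _ e (poly_left G _ _).closed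
      (poly_strip G _).closed (poly_left G _ _).star (poly_strip G _).star
      (isPathConnected_cyl (isPathConnected_left G s n (by omega)))
      (isPathConnected_cyl (isPathConnected_strip G n)) ?_ ?_ ?_
    · rw [cyl_inter, leftP_inter G hn']
      exact isPathConnected_cyl (isPathConnected_line G _)
    · exact (ih (by omega)).congr fun x => rfl
    · exact (piTriv_strip G hn' (h n hn') ((cyl_mono (strip_subset G hn')).trans
        (base_eq G hs).subset)).congr fun x => rfl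

theorem isPathConnected_base {s : ℕ} (hs : 0 < G.genus s) :
    IsPathConnected (G.region (.base s)) := by
  rw [← base_eq G hs, ← leftP_last G s]
  refine isPathConnected_cyl ((isPathConnected_left G s _ le_rfl).union
    (isPathConnected_right G s) ?_)
  rw [leftP_last_inter]
  exact (isPathConnected_line G _).nonempty

theorem right_subset {s : ℕ} (hs : 0 < G.genus s) :
    rightP G (G.genus s) ⊆ {p | p ∈ Sq G.L ∧ ∀ j < G.genus s, p ∉ hole j} := by
  rw [← leftP_last G s]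
  exact subset_union_right

theorem piTriv_base {s : ℕ} (h : ∀ j < G.genus s, PiTriv (blk G (.handle s j))) :
    PiTriv (blk G (.base s)) := by
  rcases Nat.eq_zero_or_pos (G.genus s) with hs | hs
  · have : IsEmpty (G.region (.base s)) := ⟨fun x => by
      have := x.2.1
      omega⟩
    exact PiTriv.of_isEmpty _
  have e : cyl (leftP G (G.genus s) (G.genus s)) ∪ cyl (rightP G (G.genus s)) =
      G.region (.base s) := by
    rw [cyl_union, leftP_last G s, base_eq G hs]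
  refine piTriv_union_poly (slsc_thickening G) _ e (poly_left G _ _).closed
    (poly_right G _).closed (poly_left G _ _).star (poly_right G _).star
    (isPathConnected_cyl (isPathConnected_left G s _ le_rfl))
    (isPathConnected_cyl (isPathConnected_right G s)) ?_ ?_ ?_
  · rw [cyl_inter, leftP_last_inter G]
    exact isPathConnected_cyl (isPathConnected_line G _)
  · exact (piTriv_left G hs h _ le_rfl).congr fun x => rfl
  · refine PiTriv.of_convex ?_ (isPathConnected_cyl (isPathConnected_right G s)).nonempty _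
    exact ((convex_Icc _ _).prod (convex_Icc _ _)).prod ((convex_singleton _).prod convex_fib)

/-- **Loops in the blocks are null-homotopic in the thickening.** -/
theorem piTriv_blk (b : Block) : PiTriv (blk G b) := by
  have hnext : ∀ s j, PiTriv (blk G (nextBlock (s, j, true))) := fun s j => by
    have : nextBlock (s, j, true) = .cap (s, j, true) := by simp [nextBlock]
    rw [this]
    exact piTriv_cap G _
  have hnext' : ∀ s j, PiTriv (blk G (nextBlock (s + 1, j, false))) := fun s j => by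
    have : nextBlock (s + 1, j, false) = .cap (s + 1, j, false) := by simp [nextBlock]
    rw [this]
    exact piTriv_cap G _
  have hh : ∀ s j, PiTriv (blk G (.handle (s + 1) j)) := fun s j =>
    piTriv_handle G (hnext' s j) (hnext (s + 1) j)
  have hb : ∀ s, PiTriv (blk G (.base (s + 1))) := fun s => piTriv_base G fun j _ => hh s j
  have hh0 : ∀ j, PiTriv (blk G (.handle 0 j)) := fun j => by
    refine piTriv_handle G ?_ (hnext 0 j)
    have : nextBlock (0, j, false) = .base (j + 1) := by simp [nextBlock]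
    rw [this]
    exact hb j
  cases b with
  | base s =>
    cases s with
    | zero => exact piTriv_base G fun j _ => hh0 j
    | succ s => exact hb s
  | handle s j =>
    cases s with
    | zero => exact hh0 j
    | succ s => exact hh s j
  | cap t => exact piTriv_cap G t

end Vale.Agent.P215.H580
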