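import Vale.Agent.P215.H580.Plane

/-!
# Loops in the blocks are null-homotopic in the thickening
-/

noncomputable section

namespace Vale.Agent.P215.H580

open Set Topology unitInterval Vale.Agent.P215.H562 Vale.Agent.P215.H788
  Vale.Agent.P215.H788.CappedGrope

variable (G : CappedGrope)

/-- The block `b` in the thickening. -/
def blk (b : Block) : C(G.region b, G.Thickening) :=
  ⟨fun x => Quot.mk _ (⟨(b, x.1), x.2⟩ : G.Pts),
    continuous_quot_mk.comp (Continuous.subtype_mk (by fun_prop) _)⟩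

theorem blk_eq_of_glue {b b' : Block} {x y : E} (hx : x ∈ G.region b) (hy : y ∈ G.region b')
    (h : G.Glue (b, x) (b', y)) : blk G b ⟨x, hx⟩ = blk G b' ⟨y, hy⟩ :=
  Quot.sound (r := fun x y : G.Pts => G.Glue x.1 y.1) h

/-! ### Caps -/

theorem piTriv_cap (t : Tip) : PiTriv (blk G (.cap t)) := by
  by_cases ht : IsCapped G.genera t
  · have e : G.region (.cap t) = Sq G.L ×ˢ (({0} : Set (ℝ × ℝ)) ×ˢ Fib) := by
      ext x
      exact ⟨fun h => h.2, fun h => ⟨ht, h⟩⟩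
    have hc : Convex ℝ (G.region (.cap t)) := by
      rw [e]
      exact (convex_sq _).prod ((convex_singleton _).prod convex_fib)
    refine PiTriv.of_convex hc ?_ _
    have := four_le_L G
    exact ⟨((0, 0), 0, (2, 2)), ht, ⟨⟨le_rfl, by linarith⟩, ⟨le_rfl, by linarith⟩⟩, rfl,
      fib_nonempty⟩
  · have : IsEmpty (G.region (.cap t)) := ⟨fun x => ht x.2.1⟩
    exact PiTriv.of_isEmpty _

/-! ### Handles -/

theorem genus_succ_pos {j : ℕ} (hj : j < G.genus 0) : 0 < G.genus (j + 1) := by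
  change 0 < G.genera.getD j 0
  have hj' : j < G.genera.length := hj
  rw [List.getD_eq_getElem _ _ hj']
  exact G.genera_pos _ (List.getElem_mem hj')

theorem bdSq_not_hole {s j : ℕ} (hj : j < G.genus s) {z : ℝ × ℝ} (hz : z ∈ bdSq G.L) :
    z ∉ hole j := by
  rintro ⟨⟨a, b⟩, c, d⟩
  have hL := four_le_L G
  have h2 := hole_le_L G hj
  have h3 : (0 : ℝ) ≤ j := Nat.cast_nonneg j
  obtain ⟨-, h | h | h | h⟩ := hz <;> linarith

theorem next_mem {s j : ℕ} (b : Bool) (hj : j < G.genus s) {z v : ℝ × ℝ} (hz : z ∈ bdSq G.L)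
    (hv : v ∈ Fib) : ((z, 0, v) : E) ∈ G.region (nextBlock (s, j, b)) := by
  unfold nextBlock
  split_ifs with h
  · obtain ⟨h1, h2⟩ := h
    change s = 0 at h1
    subst h1
    exact ⟨genus_succ_pos G hj, ⟨hz.1, fun j' hj' => bdSq_not_hole G hj' hz⟩, rfl, hv⟩
  · exact ⟨⟨hj, h⟩, hz.1, rfl, hv⟩

theorem handle_eq {s j : ℕ} (hj : j < G.genus s) :
    (bdSq G.L ×ˢ (arcJ G.L ×ˢ Fib)) ∪ (arcJ G.L ×ˢ (bdSq G.L ×ˢ Fib)) =
      G.region (.handle s j) := by
  ext x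
  constructor
  · rintro (⟨h1, h2, h3⟩ | ⟨h1, h2, h3⟩)
    · exact ⟨hj, ⟨h1, h2.1, fun h => h2.2 ⟨h.2.1, h.2.2.2⟩⟩, h3⟩
    · exact ⟨hj, ⟨h1.1, h2, fun h => h1.2 ⟨h.1, h.2.2.1⟩⟩, h3⟩
  · rintro ⟨-, ⟨h1, h2, h3⟩, h4⟩
    by_cases h : x.1.1 = G.L ∧ x.1.2 ∈ Ioo 1 3
    · exact Or.inl ⟨h1, ⟨h2, fun h' => h3 ⟨h.1, h'.1, h.2, h'.2⟩⟩, h4⟩
    · exact Or.inr ⟨⟨h1, h⟩, h2, h4⟩

theorem poly_arc1 : Poly fun x : E => x.1 ∈ arcJ G.L := by
  refine ((poly_bd1 G.L).and ((Poly.le aff1 (.const 0)).or (Poly.not_ioo aff2 1 3))).congr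
    fun x => ?_
  exact and_congr_right fun h => bdSq_side (four_le_L G) h

theorem poly_arc2 : Poly fun x : E => x.2.1 ∈ arcJ G.L := by
  refine ((poly_bd2 G.L).and ((Poly.le aff3 (.const 0)).or (Poly.not_ioo aff4 1 3))).congr
    fun x => ?_
  exact and_congr_right fun h => bdSq_side (four_le_L G) h

theorem poly_A1 : Poly fun x : E => x ∈ bdSq G.L ×ˢ (arcJ G.L ×ˢ Fib) :=
  ((poly_bd1 G.L).and ((poly_arc2 G).and poly_fib)).congr fun _ => Iff.rfl

theorem poly_A2 : Poly fun x : E => x ∈ arcJ G.L ×ˢ (bdSq G.L ×ˢ Fib) :=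
  ((poly_arc1 G).and ((poly_bd2 G.L).and poly_fib)).congr fun _ => Iff.rfl

theorem zero_two_mem_arc : ((0 : ℝ), (2 : ℝ)) ∈ arcJ G.L := by
  have := four_le_L G
  refine ⟨⟨⟨⟨le_rfl, by linarith⟩, ⟨by norm_num, by linarith⟩⟩, Or.inl rfl⟩, fun h => ?_⟩
  have : (0 : ℝ) = G.L := h.1
  linarith

theorem piTriv_A1 {s j : ℕ} (hj : j < G.genus s) (h : PiTriv (blk G (nextBlock (s, j, false)))) :
    PiTriv ((blk G (.handle s j)).comp (incl (handle_eq G hj ▸ subset_union_left))) := by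
  have hL := four_le_L G
  have := contractible_arcJ hL
  have := contractible_fib
  have hm : ∀ p : bdSq G.L × (arcJ G.L × Fib),
      ((p.1.1, p.2.1.1, p.2.2.1) : E) ∈ G.region (.handle s j) := fun p => by
    rw [← handle_eq G hj]
    exact Or.inl ⟨p.1.2, p.2.1.2, p.2.2.2⟩
  let g : C(bdSq G.L × (arcJ G.L × Fib), G.Thickening) :=
    (blk G (.handle s j)).comp ⟨fun p => ⟨_, hm p⟩, by fun_prop⟩
  have hg : PiTriv g := by
    refine PiTriv.prod g (⟨(0, 2), zero_two_mem_arc G⟩, ⟨(3, 2), ⟨by norm_num, by norm_num⟩⟩) ?_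
    have h' := h.comp (Y := bdSq G.L) ⟨fun p => ⟨(p.1, 0, (2, 2)),
      next_mem G false hj p.2 fib_nonempty⟩, by fun_prop⟩
    refine h'.congr fun p => ?_
    exact (blk_eq_of_glue G _ _ (Glue.fst s j p.1 (2, 2) p.2 fib_nonempty)).symm
  have h2 := hg.comp (Y := (bdSq G.L ×ˢ (arcJ G.L ×ˢ Fib) : Set E))
    ⟨fun x => (⟨x.1.1, x.2.1⟩, ⟨x.1.2.1, x.2.2.1⟩, ⟨x.1.2.2, x.2.2.2⟩), by fun_prop⟩
  exact h2.congr fun x => rfl

theorem piTriv_A2 {s j : ℕ} (hj : j < G.genus s) (h : PiTriv (blk G (nextBlock (s, j, true)))) :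
    PiTriv ((blk G (.handle s j)).comp (incl (handle_eq G hj ▸ subset_union_right))) := by
  have hL := four_le_L G
  have := contractible_arcJ hL
  have := contractible_fib
  have hm : ∀ p : bdSq G.L × (arcJ G.L × Fib),
      ((p.2.1.1, p.1.1, p.2.2.1) : E) ∈ G.region (.handle s j) := fun p => by
    rw [← handle_eq G hj]
    exact Or.inr ⟨p.2.1.2, p.1.2, p.2.2.2⟩
  let g : C(bdSq G.L × (arcJ G.L × Fib), G.Thickening) :=
    (blk G (.handle s j)).comp ⟨fun p => ⟨_, hm p⟩, by fun_prop⟩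
  have hg : PiTriv g := by
    refine PiTriv.prod g (⟨(0, 2), zero_two_mem_arc G⟩, ⟨(1, 2), ⟨by norm_num, by norm_num⟩⟩) ?_
    have h' := h.comp (Y := bdSq G.L) ⟨fun p => ⟨(p.1, 0, (2, 2)),
      next_mem G true hj p.2 fib_nonempty⟩, by fun_prop⟩
    refine h'.congr fun p => ?_
    exact (blk_eq_of_glue G _ _ (Glue.snd s j p.1 (2, 2) p.2 fib_nonempty)).symm
  have h2 := hg.comp (Y := (arcJ G.L ×ˢ (bdSq G.L ×ˢ Fib) : Set E))
    ⟨fun x => (⟨x.1.2.1, x.2.2.1⟩, ⟨x.1.1, x.2.1⟩, ⟨x.1.2.2, x.2.2.2⟩), by fun_prop⟩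
  exact h2.congr fun x => rfl

theorem slsc_thickening : Slsc G.Thickening := by
  have := (thickening_nice G).2.2
  exact slsc_of_slc

theorem isPathConnected_A1 : IsPathConnected (bdSq G.L ×ˢ (arcJ G.L ×ˢ Fib) : Set E) :=
  (isPathConnected_bdSq (four_le_L G)).prod
    ((isPathConnected_arcJ (four_le_L G)).prod isPathConnected_fib)

theorem isPathConnected_A2 : IsPathConnected (arcJ G.L ×ˢ (bdSq G.L ×ˢ Fib) : Set E) :=
  (isPathConnected_arcJ (four_le_L G)).prod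
    ((isPathConnected_bdSq (four_le_L G)).prod isPathConnected_fib)

theorem isPathConnected_A12 : IsPathConnected
    ((bdSq G.L ×ˢ (arcJ G.L ×ˢ Fib) : Set E) ∩ (arcJ G.L ×ˢ (bdSq G.L ×ˢ Fib) : Set E)) := by
  have : (bdSq G.L ×ˢ (arcJ G.L ×ˢ Fib) : Set E) ∩ (arcJ G.L ×ˢ (bdSq G.L ×ˢ Fib) : Set E) =
      arcJ G.L ×ˢ (arcJ G.L ×ˢ Fib) := by
    rw [prod_inter_prod, prod_inter_prod, inter_self, inter_eq_self_of_subset_right arcJ_subset,
      inter_eq_self_of_subset_left arcJ_subset]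
  rw [this]
  exact (isPathConnected_arcJ (four_le_L G)).prod
    ((isPathConnected_arcJ (four_le_L G)).prod isPathConnected_fib)

theorem isPathConnected_handle {s j : ℕ} (hj : j < G.genus s) :
    IsPathConnected (G.region (.handle s j)) := by
  rw [← handle_eq G hj]
  exact (isPathConnected_A1 G).union (isPathConnected_A2 G) (isPathConnected_A12 G).nonempty

theorem piTriv_handle {s j : ℕ} (h1 : PiTriv (blk G (nextBlock (s, j, false))))
    (h2 : PiTriv (blk G (nextBlock (s, j, true)))) : PiTriv (blk G (.handle s j)) := by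
  by_cases hj : j < G.genus s
  · exact piTriv_union_poly (slsc_thickening G) (blk G (.handle s j)) (handle_eq G hj)
      (poly_A1 G).closed (poly_A2 G).closed (poly_A1 G).star (poly_A2 G).star
      (isPathConnected_A1 G) (isPathConnected_A2 G) (isPathConnected_A12 G)
      (piTriv_A1 G hj h1) (piTriv_A2 G hj h2)
  · have : IsEmpty (G.region (.handle s j)) := ⟨fun x => hj x.2.1⟩
    exact PiTriv.of_isEmpty _

end Vale.Agent.P215.H580
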