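import Vale.Agent.P215.H580.Union
import Mathlib.Topology.Homotopy.Lifting

/-!
# The covering space of a labelled gluing

Blocks are glued along cells, and each gluing is labelled by an element of a group `F`.  The blocks
times `F`, glued with a shift by the labels, form a covering space of the glued space, on which `F`
acts by deck transformations.
-/

noncomputable section

namespace Vale.Agent.P215.H580

open Set Topology unitInterval Vale.Agent.P215.H562

/-- Gluing data: finitely many compact locally star-shaped blocks, glued along disjoint cells. -/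
structure GD (ι E K : Type) [TopologicalSpace ι] [DiscreteTopology ι] [NormedAddCommGroup E]
    [NormedSpace ℝ E] where
  /-- the blocks -/
  R : ι → Set E
  /-- the source of a gluing -/
  s : K → ι
  /-- the target of a gluing -/
  t : K → ι
  /-- the cell of a gluing -/
  A : K → Set E
  /-- the map of a gluing -/
  f : K → E → E
  fin : {i | (R i).Nonempty}.Finite
  cpt : ∀ i, IsCompact (R i)
  star : ∀ i, LocStar (R i)
  /-- the relation generated by the gluings -/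
  r : Pt R → Pt R → Prop
  hr : ∀ x y : Pt R, r x y ↔ ∃ k, x.1.1 = s k ∧ x.1.2 ∈ A k ∧ y.1.1 = t k ∧ y.1.2 = f k x.1.2
  hfc : ∀ k, Continuous (f k)
  hfa : ∀ k x y (c : ℝ), f k (y + c • (x - y)) = f k y + c • (f k x - f k y)
  hAc : ∀ k, IsClosed (A k)
  hAs : ∀ k, LocStar (A k)
  hiso : ∀ k, ∀ x ∈ A k, ∀ y ∈ A k, dist (f k x) (f k y) = dist x y
  hd1 : ∀ k k', k ≠ k' → s k = s k' → Disjoint (A k) (A k')
  hd2 : ∀ k k', k ≠ k' → t k = t k' → Disjoint (f k '' A k) (f k' '' A k')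
  hd3 : ∀ k k', s k = t k' → Disjoint (A k) (f k' '' A k')

namespace GD

variable {ι E K : Type} [TopologicalSpace ι] [DiscreteTopology ι] [NormedAddCommGroup E]
  [NormedSpace ℝ E] (D : GD ι E K)

/-- The points `x` and `y` are glued by the gluing number `k`. -/
def rel (k : K) (x y : Pt D.R) : Prop := relOf D.R D.s D.t D.A D.f k x y

theorem r_iff (x y : Pt D.R) : D.r x y ↔ ∃ k, D.rel k x y := D.hr x y

variable {D}

theorem rel_src {k k' : K} {x y z : Pt D.R} (h : D.rel k x y) (h' : D.rel k' x z) :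
    k = k' ∧ y = z := by
  obtain ⟨a1, a2, a3, a4⟩ := h
  obtain ⟨b1, b2, b3, b4⟩ := h'
  have hk : k = k' := by
    by_contra hne
    exact disjoint_left.1 (D.hd1 k k' hne (a1.symm.trans b1)) a2 b2
  subst hk
  exact ⟨rfl, Subtype.ext (Prod.ext (a3.trans b3.symm) (a4.trans b4.symm))⟩

theorem rel_tgt {k k' : K} {x y z : Pt D.R} (h : D.rel k y x) (h' : D.rel k' z x) :
    k = k' ∧ y = z := by
  obtain ⟨a1, a2, a3, a4⟩ := h
  obtain ⟨b1, b2, b3, b4⟩ := h'
  have hk : k = k' := by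
    by_contra hne
    exact disjoint_left.1 (D.hd2 k k' hne (a3.symm.trans b3)) ⟨_, a2, a4.symm⟩ ⟨_, b2, b4.symm⟩
  subst hk
  refine ⟨rfl, Subtype.ext (Prod.ext (a1.trans b1.symm) ?_)⟩
  have := D.hiso k _ a2 _ b2
  rw [← a4, ← b4, dist_self] at this
  exact dist_eq_zero.1 this.symm

theorem rel_mid {k k' : K} {x y z : Pt D.R} (h : D.rel k x y) (h' : D.rel k' z x) : False := by
  obtain ⟨a1, a2, a3, a4⟩ := h
  obtain ⟨b1, b2, b3, b4⟩ := h'
  exact disjoint_left.1 (D.hd3 k k' (a1.symm.trans b3)) a2 ⟨_, b2, b4.symm⟩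

variable (D)

/-- The symmetrized relation. -/
def S (x y : Pt D.R) : Prop := D.r x y ∨ D.r y x

theorem compactSpace : CompactSpace (Pt D.R) := compactSpace_pt D.R D.fin D.cpt

theorem symmOf : SymmOf D.r D.S := fun _ _ => Iff.rfl

theorem S_func (x y z : Pt D.R) (h : D.S x y) (h' : D.S x z) : y = z := by
  rcases h with h | h <;> rcases h' with h' | h' <;> obtain ⟨k, h⟩ := (D.r_iff _ _).1 h <;>
    obtain ⟨k', h'⟩ := (D.r_iff _ _).1 h'
  · exact (rel_src h h').2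
  · exact (rel_mid h h').elim
  · exact (rel_mid h' h).elim
  · exact (rel_tgt h h').2

theorem mk_eq_iff (x y : Pt D.R) : Quot.mk D.r x = Quot.mk D.r y ↔ x = y ∨ D.S x y :=
  quot_eq_iff (fun _ _ h => h.symm) D.S_func D.symmOf x y

theorem fib_finite (w : Quot D.r) : {z | Quot.mk D.r z = w}.Finite := by
  obtain ⟨x, rfl⟩ := Quot.exists_rep w
  have : {z | Quot.mk D.r z = Quot.mk D.r x} ⊆ {x} ∪ {x' | D.S x x'} := by
    intro z hz
    rcases (D.mk_eq_iff z x).1 hz with h' | h'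
    · exact Or.inl h'
    · exact Or.inr h'.symm
  refine ((finite_singleton x).union ?_).subset this
  exact Set.Subsingleton.finite fun a ha b hb => D.S_func x a b ha hb

/-- Near `x`, only the cells which contain `x` are met. -/
def Near (x : Pt D.R) (ρ : ℝ) : Prop :=
  ∀ y ∈ bl D.R x ρ, ∀ y' k,
    (D.rel k y y' → ∃ x', D.rel k x x' ∧ y' ∈ bl D.R x' ρ) ∧
    (D.rel k y' y → ∃ x', D.rel k x' x ∧ y' ∈ bl D.R x' ρ)

theorem eventually_near [Finite K] (x : Pt D.R) : ∀ᶠ ρ in 𝓝[>] (0 : ℝ), D.Near x ρ := by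
  have hP := D.compactSpace
  let C1 : K → Set (Pt D.R) := fun k => Prod.fst '' {p : Pt D.R × Pt D.R | D.rel k p.1 p.2}
  let C2 : K → Set (Pt D.R) := fun k => Prod.snd '' {p : Pt D.R × Pt D.R | D.rel k p.1 p.2}
  have hC1 : ∀ k, IsClosed (C1 k) := fun k =>
    ((isClosed_relOf D.hfc D.hAc k).isCompact.image continuous_fst).isClosed
  have hC2 : ∀ k, IsClosed (C2 k) := fun k =>
    ((isClosed_relOf D.hfc D.hAc k).isCompact.image continuous_snd).isClosed
  have e : ∀ C : K → Set (Pt D.R), (∀ k, IsClosed (C k)) →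
      ∀ᶠ ρ in 𝓝[>] (0 : ℝ), ∀ k, x ∉ C k → Disjoint (bl D.R x ρ) (C k) := by
    intro C hC
    refine Filter.eventually_all.2 fun k => ?_
    by_cases hx : x ∈ C k
    · exact Filter.Eventually.of_forall fun _ h => absurd hx h
    have := eventually_of_exists (Q := fun ρ => bl D.R x ρ ⊆ (C k)ᶜ)
      (fun ρ τ hτ h => (bl_mono D.R x hτ).trans h)
      (exists_bl_subset D.R x ((hC k).isOpen_compl.mem_nhds hx))
    filter_upwards [this] with ρ h _ using disjoint_left.2 fun y hy => h hy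
  filter_upwards [e C1 hC1, e C2 hC2] with ρ h1 h2
  intro y hy y' k
  constructor
  · intro hk
    have hx : x ∈ C1 k := by
      by_contra hne
      exact disjoint_left.1 (h1 k hne) hy ⟨(y, y'), hk, rfl⟩
    obtain ⟨⟨x0, x'⟩, hx', hx0⟩ := hx
    have hx0' : x0 = x := hx0
    subst hx0'
    refine ⟨x', hx', ?_⟩
    obtain ⟨a1, a2, a3, a4⟩ := hk
    obtain ⟨b1, b2, b3, b4⟩ := hx'
    refine ⟨a3.trans b3.symm, ?_⟩
    rw [a4, b4, D.hiso k _ a2 _ b2]
    exact hy.2
  · intro hk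
    have hx : x ∈ C2 k := by
      by_contra hne
      exact disjoint_left.1 (h2 k hne) hy ⟨(y', y), hk, rfl⟩
    obtain ⟨⟨x', x0⟩, hx', hx0⟩ := hx
    have hx0' : x0 = x := hx0
    subst hx0'
    refine ⟨x', hx', ?_⟩
    obtain ⟨a1, a2, a3, a4⟩ := hk
    obtain ⟨b1, b2, b3, b4⟩ := hx'
    refine ⟨a1.trans b1.symm, ?_⟩
    have hd : dist y'.1.2 x'.1.2 = dist y.1.2 x0.1.2 := by
      rw [a4, b4, D.hiso k _ a2 _ b2]
    rw [hd]
    exact hy.2

/-- The radius `ρ` is small for all points over `w`. -/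
structure Small (w : Quot D.r) (ρ : ℝ) : Prop where
  pos : 0 < ρ
  near : ∀ z, Quot.mk D.r z = w → D.Near z ρ
  star : ∀ z : Pt D.R, Quot.mk D.r z = w → ∀ y ∈ D.R z.1.1, dist y z.1.2 < ρ →
    ∀ c ∈ Icc (0 : ℝ) 1, y + c • (z.1.2 - y) ∈ D.R z.1.1
  disj : ∀ z z', Quot.mk D.r z = w → Quot.mk D.r z' = w → z ≠ z' →
    Disjoint (bl D.R z ρ) (bl D.R z' ρ)

theorem exists_small [Finite K] (w : Quot D.r) {N : Set (Quot D.r)} (hN : N ∈ 𝓝 w) :
    ∃ ρ, D.Small w ρ ∧ ∀ z, Quot.mk D.r z = w → bl D.R z ρ ⊆ Quot.mk D.r ⁻¹' N := by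
  have hf := D.fib_finite w
  have e1 : ∀ᶠ ρ in 𝓝[>] (0 : ℝ), ∀ z ∈ {z | Quot.mk D.r z = w},
      bl D.R z ρ ⊆ Quot.mk D.r ⁻¹' N := by
    refine hf.eventually_all.2 fun z hz => ?_
    refine eventually_of_exists (fun ρ τ hτ h => (bl_mono D.R z hτ).trans h) ?_
    refine exists_bl_subset D.R z ?_
    exact (continuous_quot_mk (r := D.r)).continuousAt.preimage_mem_nhds
      (by rw [show Quot.mk D.r z = w from hz]; exact hN)
  have e2 : ∀ᶠ ρ in 𝓝[>] (0 : ℝ), ∀ z ∈ {z | Quot.mk D.r z = w}, ∀ y ∈ D.R z.1.1,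
      dist y z.1.2 < ρ → ∀ t ∈ Icc (0 : ℝ) 1, y + t • (z.1.2 - y) ∈ D.R z.1.1 := by
    refine hf.eventually_all.2 fun z hz => ?_
    exact eventually_of_exists (fun ρ τ hτ h y hy hd => h y hy (hd.trans_le hτ))
      (D.star z.1.1 z.1.2 z.2)
  have e3 : ∀ᶠ ρ in 𝓝[>] (0 : ℝ), ∀ z ∈ {z | Quot.mk D.r z = w}, D.Near z ρ :=
    hf.eventually_all.2 fun z _ => D.eventually_near z
  have e4 : ∀ᶠ ρ in 𝓝[>] (0 : ℝ), ∀ z ∈ {z | Quot.mk D.r z = w},
      ∀ z' ∈ {z | Quot.mk D.r z = w}, z ≠ z' → Disjoint (bl D.R z ρ) (bl D.R z' ρ) := by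
    refine hf.eventually_all.2 fun z _ => hf.eventually_all.2 fun z' _ => ?_
    by_cases hzz : z = z'
    · exact Filter.Eventually.of_forall fun _ h => absurd hzz h
    obtain ⟨A, B, hA, hB, hzA, hzB, hAB⟩ := t2_separation hzz
    have f1 : ∀ᶠ ρ in 𝓝[>] (0 : ℝ), bl D.R z ρ ⊆ A :=
      eventually_of_exists (fun ρ τ hτ h => (bl_mono D.R z hτ).trans h)
        (exists_bl_subset D.R z (hA.mem_nhds hzA))
    have f2 : ∀ᶠ ρ in 𝓝[>] (0 : ℝ), bl D.R z' ρ ⊆ B :=
      eventually_of_exists (fun ρ τ hτ h => (bl_mono D.R z' hτ).trans h)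
        (exists_bl_subset D.R z' (hB.mem_nhds hzB))
    filter_upwards [f1, f2] with ρ h1 h2 _ using hAB.mono h1 h2
  obtain ⟨ρ, h1, h2, h3, h4, h5⟩ :=
    (e1.and (e2.and (e3.and (e4.and eventually_mem_nhdsWithin)))).exists
  exact ⟨ρ, ⟨h5, fun z hz => h3 z hz, fun z hz => h2 z hz, fun z z' hz hz' => h4 z hz z' hz'⟩,
    fun z hz => h1 z hz⟩

/-! ### The covering space -/

section Covering

variable {F : Type} [Group F] [TopologicalSpace F] [DiscreteTopology F] (l : K → F)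

/-- The points of the blocks times `F`. -/
abbrev P' (_ : K → F) : Type := Pt fun i : ι × F => D.R i.1

/-- The projection of the points. -/
def pr (x : D.P' l) : Pt D.R := ⟨(x.1.1.1, x.1.2), x.2⟩

/-- The points over `x`. -/
def lft (x : Pt D.R) (g : F) : D.P' l := ⟨((x.1.1, g), x.1.2), x.2⟩

@[simp] theorem pr_lft (x : Pt D.R) (g : F) : D.pr l (D.lft l x g) = x := rfl

@[simp] theorem lft_pr (x : D.P' l) : D.lft l (D.pr l x) x.1.1.2 = x := rfl

theorem continuous_pr : Continuous (D.pr l) :=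
  Continuous.subtype_mk (by fun_prop) _

omit [DiscreteTopology F] in
theorem continuous_lft (g : F) : Continuous fun x => D.lft l x g :=
  Continuous.subtype_mk (by fun_prop) _

/-- The shifted gluing. -/
def r' (x y : D.P' l) : Prop := ∃ k, D.rel k (D.pr l x) (D.pr l y) ∧ y.1.1.2 = x.1.1.2 * l k

/-- The covering space. -/
def Cov : Type := Quot (D.r' l)

instance : TopologicalSpace (D.Cov l) := inferInstanceAs (TopologicalSpace (Quot (D.r' l)))

/-- The quotient map to the covering space. -/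
def mk' (x : D.P' l) : D.Cov l := Quot.mk _ x

theorem continuous_mk' : Continuous (D.mk' l) := continuous_quot_mk

/-- The covering map. -/
def proj : D.Cov l → Quot D.r :=
  Quot.lift (fun x => Quot.mk D.r (D.pr l x)) fun _ _ h =>
    Quot.sound ((D.r_iff _ _).2 ⟨h.choose, h.choose_spec.1⟩)

@[simp] theorem proj_mk' (x : D.P' l) : D.proj l (D.mk' l x) = Quot.mk D.r (D.pr l x) := rfl

theorem continuous_proj : Continuous (D.proj l) :=
  continuous_quot_lift _ (continuous_quot_mk.comp (D.continuous_pr l))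

theorem isQuotientMap_proj : IsQuotientMap (D.proj l) := by
  have h1 : IsQuotientMap (D.pr l) :=
    IsQuotientMap.of_inverse (D.continuous_lft l 1) (D.continuous_pr l) fun x => rfl
  have h2 : IsQuotientMap (D.proj l ∘ D.mk' l) := isQuotientMap_quot_mk.comp h1
  exact IsQuotientMap.of_comp (D.continuous_mk' l) (D.continuous_proj l) h2

/-- The deck transformations, on the points of the blocks. -/
def shift (g : F) (x : D.P' l) : D.P' l := ⟨((x.1.1.1, g * x.1.1.2), x.1.2), x.2⟩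

theorem r'_shift (g : F) {x y : D.P' l} (h : D.r' l x y) :
    D.r' l (D.shift l g x) (D.shift l g y) := by
  obtain ⟨k, hk, hl⟩ := h
  exact ⟨k, hk, by change g * y.1.1.2 = g * x.1.1.2 * l k; rw [hl, mul_assoc]⟩

instance : SMul F (D.Cov l) :=
  ⟨fun g => Quot.map (D.shift l g) fun _ _ h => D.r'_shift l g h⟩

theorem smul_mk' (g : F) (x : D.P' l) : g • D.mk' l x = D.mk' l (D.shift l g x) := rfl

instance : MulAction F (D.Cov l) where
  one_smul e := by
    obtain ⟨x, rfl⟩ := Quot.exists_rep e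
    change D.mk' l (D.shift l 1 x) = D.mk' l x
    congr 1
    refine Subtype.ext (Prod.ext (Prod.ext rfl ?_) rfl)
    exact one_mul _
  mul_smul g h e := by
    obtain ⟨x, rfl⟩ := Quot.exists_rep e
    change D.mk' l (D.shift l (g * h) x) = D.mk' l (D.shift l g (D.shift l h x))
    congr 1
    refine Subtype.ext (Prod.ext (Prod.ext rfl ?_) rfl)
    exact mul_assoc _ _ _

theorem continuous_shift (g : F) : Continuous (D.shift l g) := by
  refine Continuous.subtype_mk ?_ _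
  have h : Continuous fun h : F => g * h := continuous_of_discreteTopology
  fun_prop

instance : ContinuousConstSMul F (D.Cov l) :=
  ⟨fun g => continuous_quot_lift _ ((D.continuous_mk' l).comp (D.continuous_shift l g))⟩

theorem proj_eq_iff {e₁ e₂ : D.Cov l} :
    D.proj l e₁ = D.proj l e₂ ↔ e₁ ∈ MulAction.orbit F e₂ := by
  constructor
  · intro h
    obtain ⟨x, rfl⟩ := Quot.exists_rep e₁
    obtain ⟨y, rfl⟩ := Quot.exists_rep e₂
    have h' : Quot.mk D.r (D.pr l x) = Quot.mk D.r (D.pr l y) := h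
    rcases (D.mk_eq_iff _ _).1 h' with h | h | h
    · refine ⟨x.1.1.2 * y.1.1.2⁻¹, ?_⟩
      change D.mk' l (D.shift l _ y) = D.mk' l x
      congr 1
      have h1 : y.1.1.1 = x.1.1.1 := (congrArg (fun p => p.1.1) h).symm
      have h2 : y.1.2 = x.1.2 := (congrArg (fun p => p.1.2) h).symm
      refine Subtype.ext (Prod.ext (Prod.ext h1 ?_) h2)
      change x.1.1.2 * y.1.1.2⁻¹ * y.1.1.2 = x.1.1.2
      group
    · obtain ⟨k, hk⟩ := (D.r_iff _ _).1 h
      refine ⟨x.1.1.2 * l k * y.1.1.2⁻¹, ?_⟩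
      change D.mk' l (D.shift l _ y) = D.mk' l x
      refine (Quot.sound ⟨k, hk, ?_⟩).symm
      change x.1.1.2 * l k * y.1.1.2⁻¹ * y.1.1.2 = x.1.1.2 * l k
      group
    · obtain ⟨k, hk⟩ := (D.r_iff _ _).1 h
      refine ⟨x.1.1.2 * (l k)⁻¹ * y.1.1.2⁻¹, ?_⟩
      change D.mk' l (D.shift l _ y) = D.mk' l x
      refine Quot.sound ⟨k, hk, ?_⟩
      change x.1.1.2 = x.1.1.2 * (l k)⁻¹ * y.1.1.2⁻¹ * y.1.1.2 * l k
      group
  · rintro ⟨g, rfl⟩
    obtain ⟨y, rfl⟩ := Quot.exists_rep e₂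
    rfl

/-- The symmetrized relation on the covering space. -/
theorem mk'_eq_iff (x y : D.P' l) :
    D.mk' l x = D.mk' l y ↔ x = y ∨ D.r' l x y ∨ D.r' l y x := by
  refine quot_eq_iff (S := fun x y => D.r' l x y ∨ D.r' l y x) (fun _ _ h => h.symm) ?_
    (fun _ _ => Iff.rfl) x y
  have ext' : ∀ x y : D.P' l, D.pr l x = D.pr l y → x.1.1.2 = y.1.1.2 → x = y := by
    intro x y h h'
    rw [← D.lft_pr l x, ← D.lft_pr l y, h, h']
  rintro x y z (⟨k, h, a⟩ | ⟨k, h, a⟩) (⟨k', h', b⟩ | ⟨k', h', b⟩)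
  · obtain ⟨rfl, h2⟩ := rel_src h h'
    exact ext' _ _ h2 (a.trans b.symm)
  · exact (rel_mid h h').elim
  · exact (rel_mid h' h).elim
  · obtain ⟨rfl, h2⟩ := rel_tgt h h'
    exact ext' _ _ h2 (mul_right_cancel (a.symm.trans b))

/-- The neighbourhood of radius `ρ` of a point of the covering space. -/
def nb (e : D.Cov l) (ρ : ℝ) : Set (D.P' l) :=
  {y | ∃ q, D.mk' l q = e ∧ y ∈ bl (fun i : ι × F => D.R i.1) q ρ}

theorem isOpen_nb (e : D.Cov l) (ρ : ℝ) : IsOpen (D.nb l e ρ) := by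
  have : D.nb l e ρ = ⋃ q ∈ {q | D.mk' l q = e}, bl (fun i : ι × F => D.R i.1) q ρ := by
    ext y
    simp [nb]
  rw [this]
  exact isOpen_biUnion fun q _ => isOpen_bl _ q ρ

theorem nb_sat {e : D.Cov l} {ρ : ℝ} (h : D.Small (D.proj l e) ρ) {x y : D.P' l}
    (hx : x ∈ D.nb l e ρ) (hxy : D.mk' l x = D.mk' l y) : y ∈ D.nb l e ρ := by
  obtain ⟨q, rfl, hq1, hq2⟩ := hx
  have hqx : D.pr l x ∈ bl D.R (D.pr l q) ρ :=
    ⟨show x.1.1.1 = q.1.1.1 from congrArg Prod.fst hq1, hq2⟩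
  have hn := h.near (D.pr l q) rfl (D.pr l x) hqx (D.pr l y)
  rcases (D.mk'_eq_iff l x y).1 hxy with rfl | ⟨k, hk, hl⟩ | ⟨k, hk, hl⟩
  · exact ⟨q, rfl, hq1, hq2⟩
  · obtain ⟨x', hx', hy1, hy2⟩ := (hn k).1 hk
    have hr : D.r' l q (D.lft l x' (q.1.1.2 * l k)) := ⟨k, hx', rfl⟩
    refine ⟨D.lft l x' (q.1.1.2 * l k), (Quot.sound hr).symm, Prod.ext hy1 ?_, hy2⟩
    have : x.1.1.2 = q.1.1.2 := congrArg Prod.snd hq1
    rw [hl, this]
    rfl
  · obtain ⟨x', hx', hy1, hy2⟩ := (hn k).2 hk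
    have hr : D.r' l (D.lft l x' (q.1.1.2 * (l k)⁻¹)) q := by
      refine ⟨k, hx', ?_⟩
      change q.1.1.2 = q.1.1.2 * (l k)⁻¹ * l k
      group
    refine ⟨D.lft l x' (q.1.1.2 * (l k)⁻¹), Quot.sound hr, Prod.ext hy1 ?_, hy2⟩
    · have : x.1.1.2 = q.1.1.2 := congrArg Prod.snd hq1
      change y.1.1.2 = q.1.1.2 * (l k)⁻¹
      rw [← this, hl]
      group

theorem image_nb_mem {e : D.Cov l} {ρ : ℝ} (h : D.Small (D.proj l e) ρ) :
    D.mk' l '' D.nb l e ρ ∈ 𝓝 e := by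
  have h1 : D.mk' l ⁻¹' (D.mk' l '' D.nb l e ρ) = D.nb l e ρ := by
    refine Subset.antisymm ?_ (subset_preimage_image _ _)
    rintro y ⟨x, hx, hxy⟩
    exact D.nb_sat l h hx hxy
  have h2 : IsOpen (D.mk' l '' D.nb l e ρ) := by
    have hq : IsQuotientMap (D.mk' l) := isQuotientMap_quot_mk
    rw [← hq.isOpen_preimage, h1]
    exact D.isOpen_nb l e ρ
  refine h2.mem_nhds ?_
  obtain ⟨x, rfl⟩ := Quot.exists_rep e
  exact ⟨x, ⟨x, rfl, mem_bl_self _ x h.pos⟩, rfl⟩

/-- **The labelled gluing gives a covering map.** -/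
theorem isQuotientCoveringMap_proj [Finite K] : IsQuotientCoveringMap (D.proj l) F where
  toIsQuotientMap := D.isQuotientMap_proj l
  toContinuousConstSMul := inferInstance
  apply_eq_iff_mem_orbit := D.proj_eq_iff l
  disjoint e := by
    obtain ⟨ρ, hρ, -⟩ := D.exists_small (D.proj l e) Filter.univ_mem
    refine ⟨_, D.image_nb_mem l hρ, fun g hg => ?_⟩
    obtain ⟨_, ⟨_, ⟨x, hx, rfl⟩, rfl⟩, y, hy, hxy⟩ := hg
    have hxy' : D.mk' l y = D.mk' l (D.shift l g x) := hxy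
    have hx' : D.shift l g x ∈ D.nb l e ρ := D.nb_sat l hρ hy hxy'
    obtain ⟨q, hq, hq1, hq2⟩ := hx
    obtain ⟨q', hq', hq1', hq2'⟩ := hx'
    have e1 : D.pr l x ∈ bl D.R (D.pr l q) ρ :=
      ⟨show x.1.1.1 = q.1.1.1 from congrArg Prod.fst hq1, hq2⟩
    have e2 : D.pr l x ∈ bl D.R (D.pr l q') ρ :=
      ⟨(congrArg Prod.fst hq1' : (D.shift l g x).1.1.1 = q'.1.1.1), hq2'⟩
    have e3 : D.pr l q = D.pr l q' := by
      by_contra hne
      exact disjoint_left.1 (hρ.disj _ _ (by rw [← D.proj_mk' l, hq])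
        (by rw [← D.proj_mk' l, hq']) hne) e1 e2
    have e4 : x.1.1.2 = q.1.1.2 := congrArg Prod.snd hq1
    have e5 : g * x.1.1.2 = q'.1.1.2 := congrArg Prod.snd hq1'
    have e6 : q.1.1.2 = q'.1.1.2 := by
      rcases (D.mk'_eq_iff l q q').1 (hq.trans hq'.symm) with rfl | ⟨k, hk, -⟩ | ⟨k, hk, -⟩
      · rfl
      · rw [e3] at hk
        exact (rel_mid hk hk).elim
      · rw [e3] at hk
        exact (rel_mid hk hk).elim
    have e7 : g * q.1.1.2 = q.1.1.2 := by rw [← e4, e5, ← e6, e4]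
    exact mul_eq_right.1 e7

end Covering

end GD

end Vale.Agent.P215.H580
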