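import Mathlib

/-!
# Free groups of finite rank embed in the free group of rank two
-/

noncomputable section

namespace Vale.Agent.P215.H580

/-- The shift of the generators of the free group on `ℤ`. -/
def shiftAut : Multiplicative ℤ →* MulAut (FreeGroup ℤ) where
  toFun k := FreeGroup.freeGroupCongr (Equiv.addRight k.toAdd)
  map_one' := by
    ext x
    simp
  map_mul' k l := by
    ext x
    induction x using FreeGroup.induction_on with
    | C1 => simp
    | of x => simp [add_comm, add_left_comm]
    | inv_of x _ => simp [add_comm, add_left_comm]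
    | mul x y hx hy => rw [MulEquiv.map_mul _ x y, MulEquiv.map_mul _ x y, hx, hy]

/-- The homomorphism from `F₂` to a semidirect product. -/
def toSemi : FreeGroup (Fin 2) →* FreeGroup ℤ ⋊[shiftAut] Multiplicative ℤ :=
  FreeGroup.lift ![SemidirectProduct.inr (Multiplicative.ofAdd 1),
    SemidirectProduct.inl (FreeGroup.of 0)]

/-- The free group on `ℤ` in `F₂`. -/
def embZ : FreeGroup ℤ →* FreeGroup (Fin 2) :=
  FreeGroup.lift fun k => FreeGroup.of 0 ^ k * FreeGroup.of 1 * (FreeGroup.of 0 ^ k)⁻¹

theorem toSemi_embZ : toSemi.comp embZ = SemidirectProduct.inl := by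
  ext k : 1
  have h0 : toSemi (FreeGroup.of 0) = SemidirectProduct.inr (Multiplicative.ofAdd 1) := by
    simp [toSemi]
  have h1 : toSemi (FreeGroup.of 1) = SemidirectProduct.inl (FreeGroup.of 0) := by
    simp [toSemi]
  have h2 : shiftAut (Multiplicative.ofAdd k) (FreeGroup.of 0) = FreeGroup.of k := by
    simp [shiftAut]
  rw [MonoidHom.comp_apply, embZ, FreeGroup.lift_apply_of, map_mul, map_mul, map_inv, map_zpow,
    h0, h1, ← map_zpow, ← ofAdd_zsmul, smul_eq_mul, mul_one, ← map_inv,
    ← SemidirectProduct.inl_aut, h2]

theorem embZ_injective : Function.Injective embZ := by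
  have h : Function.Injective (toSemi.comp embZ) := by
    rw [toSemi_embZ]
    exact SemidirectProduct.inl_injective
  exact Function.Injective.of_comp (f := toSemi) h

/-- Free groups of finite rank embed in `F₂`. -/
theorem exists_embedding (n : ℕ) :
    ∃ f : FreeGroup (Fin n) →* FreeGroup (Fin 2), Function.Injective f :=
  ⟨embZ.comp (FreeGroup.map fun i : Fin n => ((i : ℕ) : ℤ)),
    embZ_injective.comp (FreeGroup.map_injective fun i j h => Fin.ext (by exact_mod_cast h))⟩

end Vale.Agent.P215.H580
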