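import Vale.Agent.P215.H580.Tree

/-!
# The fundamental group of a tree of blocks with plumbings is free
-/

noncomputable section

namespace Vale.Agent.P215.H580

open Set Topology unitInterval Vale.Agent.P215.H562

namespace GD

variable {ι E K : Type} [TopologicalSpace ι] [DiscreteTopology ι] [NormedAddCommGroup E]
  [NormedSpace ℝ E] {D : GD ι E K} {tr : K → Prop}

namespace Tree

/-- The gluings which are not in the tree. -/
abbrev NT (tr : K → Prop) : Type := {k : K // ¬ tr k}

/-- The free group on the gluings which are not in the tree. -/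
abbrev FG (tr : K → Prop) : Type := FreeGroup (NT tr)

/-- The discrete topology of the free group. -/
local instance : TopologicalSpace (FG tr) := ⊥

local instance : DiscreteTopology (FG tr) := ⟨rfl⟩

open Classical in
/-- The label of a gluing: trivial in the tree. -/
def lab (tr : K → Prop) (k : K) : FG tr := if h : tr k then 1 else FreeGroup.of ⟨k, h⟩

theorem lab_tree {k : K} (h : tr k) : lab tr k = 1 := dif_pos h

theorem lab_nt (k : NT tr) : lab tr k.1 = FreeGroup.of k := dif_neg k.2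

variable (Γ : D.Tree tr)

/-- The loop of a generator. -/
def gen (k : NT tr) : FundamentalGroup (Quot D.r) (D.pi Γ.x₀) :=
  Γ.loop (Γ.nonempty k.1 k.2).choose_spec.choose_spec

/-- The homomorphism from the free group to the classes of loops. -/
def rhoHom : FG tr →* (FundamentalGroup (Quot D.r) (D.pi Γ.x₀))ᵐᵒᵖ :=
  FreeGroup.lift fun k => MulOpposite.op (Γ.gen k)

/-- The class of loops of an element of the free group. -/
def rho (g : FG tr) : Cls (D.pi Γ.x₀) (D.pi Γ.x₀) := (Γ.rhoHom g).unop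

theorem rho_one : Γ.rho 1 = .refl _ := by
  unfold rho
  rw [map_one]
  rfl

theorem rho_mul (g h : FG tr) : Γ.rho (g * h) = (Γ.rho g).trans (Γ.rho h) := by
  unfold rho
  rw [map_mul]
  rfl

theorem rho_lab {k : K} {x y : Pt D.R} (h : D.rel k x y) :
    (⟨D.pi x, Γ.T x⟩ : Σ w, Cls (D.pi Γ.x₀) w) = ⟨D.pi y, (Γ.rho (lab tr k)).trans (Γ.T y)⟩ := by
  by_cases hk : tr k
  · rw [lab_tree hk, rho_one, Path.Homotopic.Quotient.refl_trans]
    exact Γ.T_tree hk h
  · have e : Γ.rho (lab tr k) = Γ.loop h := by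
      have h1 : lab tr k = FreeGroup.of ⟨k, hk⟩ := lab_nt ⟨k, hk⟩
      rw [h1]
      unfold rho rhoHom
      rw [FreeGroup.lift_apply_of]
      exact Γ.loop_eq (Γ.nonempty k hk).choose_spec.choose_spec h
    rw [e]
    exact Γ.T_loop h

/-- The potential on the covering space. -/
def theta : D.Cov (lab tr) → Σ w, Cls (D.pi Γ.x₀) w :=
  Quot.lift (fun x => ⟨D.pi (D.pr _ x), (Γ.rho x.1.1.2).trans (Γ.T (D.pr _ x))⟩) fun x y h => by
    obtain ⟨k, hk, hl⟩ := h
    dsimp only
    rw [hl, rho_mul, Path.Homotopic.Quotient.trans_assoc]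
    exact cls_sigma_trans _ (Γ.rho_lab hk)

theorem theta_fst (e : D.Cov (lab tr)) : (Γ.theta e).1 = D.proj (lab tr) e := by
  obtain ⟨x, rfl⟩ := Quot.exists_rep e
  rfl

/-- The potential on the covering space, as a dependent function. -/
def Theta (e : D.Cov (lab tr)) : Cls (D.pi Γ.x₀) (D.proj (lab tr) e) :=
  (Γ.theta e).2.cast rfl (Γ.theta_fst e).symm

theorem Theta_mk' (x : D.P' (lab tr)) :
    Γ.Theta (D.mk' (lab tr) x) = (Γ.rho x.1.1.2).trans (Γ.T (D.pr _ x)) := by
  change Path.Homotopic.Quotient.cast _ rfl rfl = _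
  rw [Path.Homotopic.Quotient.cast_rfl_rfl]
  rfl

/-- The covering map. -/
def projC (D : GD ι E K) (tr : K → Prop) : C(D.Cov (lab tr), Quot D.r) :=
  ⟨D.proj (lab tr), D.continuous_proj (lab tr)⟩

theorem Theta_path [Finite K] (hW : Slsc (Quot D.r)) {e e' : D.Cov (lab tr)} (γ : Path e e') :
    Γ.Theta e' = (Γ.Theta e).trans (.mk (γ.map (projC D tr).continuous)) := by
  refine local_to_global hW (projC D tr) Γ.Theta ?_ γ
  intro e₀ N hN
  obtain ⟨ρ, hρ, hN'⟩ := D.exists_small (D.proj (lab tr) e₀) hN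
  filter_upwards [D.image_nb_mem (lab tr) hρ] with e he
  obtain ⟨y, ⟨q, rfl, hq1, hq2⟩, rfl⟩ := he
  -- the straight path
  have hb : y.1.1.1 = q.1.1.1 := congrArg Prod.fst hq1
  have hd : dist y.1.2 q.1.2 < ρ := hq2
  have hy : y.1.2 ∈ D.R q.1.1.1 := hb ▸ y.2
  have hmem : ∀ c ∈ Icc (0 : ℝ) 1, y.1.2 + c • (q.1.2 - y.1.2) ∈ D.R q.1.1.1 :=
    hρ.star (D.pr _ q) rfl y.1.2 hy hd
  have hyq : (⟨(q.1.1.1, y.1.2), hy⟩ : Pt D.R) = D.pr _ y :=
    Subtype.ext (Prod.ext hb.symm rfl)
  let δ : Path (D.pr _ y) (D.pr _ q) :=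
    ⟨⟨fun t => ⟨(q.1.1.1, y.1.2 + (t : ℝ) • (q.1.2 - y.1.2)), hmem t t.2⟩, by fun_prop⟩, by
      rw [← hyq]
      exact Subtype.ext (Prod.ext rfl (by simp)), Subtype.ext (Prod.ext rfl (by simp [GD.pr]))⟩
  refine ⟨(δ.symm.map D.pi.continuous), ?_, ?_⟩
  · rintro _ ⟨t, rfl⟩
    refine hN' (D.pr _ q) rfl ?_
    exact ⟨rfl, (dist_mv _ _ (σ t).2).trans_lt hd⟩
  · have e1 : y.1.1.2 = q.1.1.2 := congrArg Prod.snd hq1
    rw [Γ.Theta_mk', Γ.Theta_mk', Γ.T_path δ.symm, e1]
    exact (Path.Homotopic.Quotient.trans_assoc _ _ _).symm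

/-! ### Path-connectedness of the covering space -/

include Γ in
theorem joined_root {Z : Type*} [TopologicalSpace Z] (f : Pt D.R → Z) (hf : Continuous f)
    (h : ∀ k x y, tr k → D.rel k x y → f x = f y) (x : Pt D.R) : Joined (f Γ.x₀) (f x) := by
  have key : ∀ n (x : Pt D.R), Γ.rank x.1.1 = n → Joined (f Γ.x₀) (f x) := by
    intro n
    induction n with
    | zero =>
      intro x hx
      exact (Γ.conn _ _ (Γ.root x hx).symm).map hf
    | succ n ih =>
      intro x hx
      obtain ⟨k, a, b, hab, hb⟩ := Γ.parent x (by omega)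
      have ha : Γ.rank a.1.1 = n := by
        have := hab.2.2
        rw [hb, hx] at this
        omega
      have e : f a = f b := by
        rcases hab.2.1 with h' | h'
        · exact h k a b hab.1 h'
        · exact (h k b a hab.1 h').symm
      have h1 := ih a ha
      rw [e] at h1
      exact h1.trans ((Γ.conn _ _ hb).map hf)
  exact key _ x rfl

theorem joined_lft (x : Pt D.R) (g : FG tr) :
    Joined (D.mk' (lab tr) (D.lft _ Γ.x₀ g)) (D.mk' (lab tr) (D.lft _ x g)) := by
  refine Γ.joined_root (fun x => D.mk' (lab tr) (D.lft _ x g))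
    ((D.continuous_mk' _).comp (D.continuous_lft _ g)) ?_ x
  intro k x y hk h
  refine Quot.sound ⟨k, h, ?_⟩
  rw [lab_tree hk, mul_one]
  rfl

theorem joined_gen (k : NT tr) (g : FG tr) :
    Joined (D.mk' (lab tr) (D.lft _ Γ.x₀ g))
      (D.mk' (lab tr) (D.lft _ Γ.x₀ (g * FreeGroup.of k))) := by
  obtain ⟨x, y, h⟩ := Γ.nonempty k.1 k.2
  have e : D.mk' (lab tr) (D.lft _ x g) = D.mk' (lab tr) (D.lft _ y (g * FreeGroup.of k)) := by
    refine Quot.sound ⟨k.1, h, ?_⟩
    rw [lab_nt]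
    rfl
  have h1 := Γ.joined_lft x g
  rw [e] at h1
  exact h1.trans (Γ.joined_lft y _).symm

theorem joined_one (g : FG tr) :
    Joined (D.mk' (lab tr) (D.lft _ Γ.x₀ 1)) (D.mk' (lab tr) (D.lft _ Γ.x₀ g)) := by
  have key : ∀ g h : FG tr,
      Joined (D.mk' (lab tr) (D.lft _ Γ.x₀ h)) (D.mk' (lab tr) (D.lft _ Γ.x₀ (h * g))) := by
    intro g
    induction g using FreeGroup.induction_on with
    | C1 => intro h; rw [mul_one]
    | of k => intro h; exact Γ.joined_gen k h
    | inv_of k _ =>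
      intro h
      have := Γ.joined_gen k (h * (FreeGroup.of k)⁻¹)
      rw [inv_mul_cancel_right] at this
      exact this.symm
    | mul x y hx hy =>
      intro h
      have := (hx h).trans (hy (h * x))
      rwa [mul_assoc] at this
  simpa using key g 1

include Γ in
theorem pathConnectedSpace_cov : PathConnectedSpace (D.Cov (lab tr)) := by
  have h0 : ∀ e : D.Cov (lab tr), Joined (D.mk' (lab tr) (D.lft _ Γ.x₀ 1)) e := by
    intro e
    obtain ⟨x, rfl⟩ := Quot.exists_rep e
    exact (Γ.joined_one x.1.1.2).trans (Γ.joined_lft (D.pr _ x) x.1.1.2)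
  exact ⟨⟨D.mk' (lab tr) (D.lft _ Γ.x₀ 1)⟩, fun e e' => (h0 e).symm.trans (h0 e')⟩

include Γ in
theorem simplyConnected_cov [Finite K] (hW : Slsc (Quot D.r)) :
    SimplyConnectedSpace (D.Cov (lab tr)) := by
  rw [simply_connected_iff_paths_homotopic']
  refine ⟨Γ.pathConnectedSpace_cov, fun {e e'} γ₁ γ₂ => ?_⟩
  have cov := (D.isQuotientCoveringMap_proj (lab tr)).isCoveringMap
  rw [← Path.Homotopic.Quotient.eq]
  refine cov.injective_path_homotopic_map e e' ?_
  have h1 := Γ.Theta_path hW γ₁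
  have h2 := Γ.Theta_path hW γ₂
  have h3 := (cls_cancel_left _).1 (h1.symm.trans h2)
  exact h3

/-- **The fundamental group is free.** -/
def fundamentalGroupEquiv [Finite K] (hW : Slsc (Quot D.r)) (w : Quot D.r) :
    FundamentalGroup (Quot D.r) w ≃* FreeGroup (NT tr) :=
  have := Γ.simplyConnected_cov hW
  have e : D.proj (lab tr) ⁻¹' {w} :=
    ⟨((D.isQuotientMap_proj (lab tr)).surjective w).choose,
      ((D.isQuotientMap_proj (lab tr)).surjective w).choose_spec⟩
  ((D.isQuotientCoveringMap_proj (lab tr)).fundamentalGroupEquiv e).trans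
    (MulEquiv.inv' (FreeGroup (NT tr))).symm

end Tree

end GD

end Vale.Agent.P215.H580
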