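import Mathlib

/-!
# Families of groups without common law

Every finite set of nontrivial elements of the free group `F₂` has a common nontrivial element in
the intersection of the normal closures; hence a family of groups without common law separates
finite sets of nontrivial elements of `F₂`.  The finite symmetric groups have no common law.
-/

namespace Vale.Agent.P215.H580

open Monoid.CoprodI

section Coprod

variable {M : Type*} {ι : Type*}

theorem neWord_prod_ne_one {ι : Type*} {H : ι → Type*} [∀ i, Group (H i)] {i j : ι}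
    (w : NeWord H i j) : w.prod ≠ 1 := by
  classical
  intro h
  have h1 : (Word.equiv (M := H)).symm w.toWord = (Word.equiv (M := H)).symm Word.empty := by
    change w.toWord.prod = Word.prod Word.empty
    rw [Word.prod_empty]
    exact h
  have h2 := (Word.equiv (M := H)).symm.injective h1
  exact w.toList_ne_nil (congrArg Word.toList h2)

/-- In a free product of infinite cyclic groups every nontrivial element has a conjugate whose
reduced word starts and ends in the given factor. -/
theorem exists_conj {ι : Type*} [Nontrivial ι] (x : Monoid.CoprodI fun _ : ι => FreeGroup Unit)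
    (hx : x ≠ 1) (i : ι) :
    ∃ (g : Monoid.CoprodI fun _ : ι => FreeGroup Unit)
      (w : NeWord (fun _ : ι => FreeGroup Unit) i i), w.prod = g * x * g⁻¹ := by
  classical
  -- a nontrivial element of the factor
  have hone : ∀ a : FreeGroup Unit, ∃ h : FreeGroup Unit, h ≠ 1 ∧ h * a ≠ 1 := by
    intro a
    have h1 : FreeGroup.of () ≠ (1 : FreeGroup Unit) := FreeGroup.of_ne_one _
    by_cases h : FreeGroup.of () * a = 1
    · refine ⟨FreeGroup.of () * FreeGroup.of (), ?_, ?_⟩
      · intro h2
        have h3 := congrArg FreeGroup.toWord h2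
        simp [FreeGroup.toWord_mul, FreeGroup.reduce] at h3
      · rw [mul_assoc, h, mul_one]
        exact h1
    · exact ⟨_, h1, h⟩
  -- first step: a conjugate of the form `NeWord p p`
  have hw : ∃ (g : Monoid.CoprodI fun _ : ι => FreeGroup Unit) (p : ι)
      (w : NeWord (fun _ : ι => FreeGroup Unit) p p), w.prod = g * x * g⁻¹ := by
    have hne : Word.equiv x ≠ (Word.empty : Word fun _ : ι => FreeGroup Unit) := by
      intro h
      apply hx
      have := congrArg Word.prod h
      rw [Word.prod_empty] at this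
      rw [← this]
      exact (Word.equiv.symm_apply_apply x).symm
    obtain ⟨p, q, w, hw⟩ := NeWord.of_word _ hne
    have hprod : w.prod = x := by
      rw [NeWord.prod, hw]
      exact Word.equiv.symm_apply_apply x
    by_cases hpq : p = q
    · subst hpq
      exact ⟨1, p, w, by simp [hprod]⟩
    · obtain ⟨h, h1, h2⟩ := hone w.head
      refine ⟨of (i := p) h, p, NeWord.append (NeWord.mulHead w h h2) (Ne.symm hpq)
        (NeWord.singleton h⁻¹ (inv_ne_one.mpr h1)), ?_⟩
      simp [hprod]
  obtain ⟨g, p, w, hw⟩ := hw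
  by_cases hpi : p = i
  · subst hpi
    exact ⟨g, w, hw⟩
  · have h1 : FreeGroup.of () ≠ (1 : FreeGroup Unit) := FreeGroup.of_ne_one _
    refine ⟨of (i := i) (FreeGroup.of ()) * g, NeWord.append (NeWord.append
      (NeWord.singleton (FreeGroup.of ()) h1) (Ne.symm hpi) w) hpi
      (NeWord.singleton (FreeGroup.of ())⁻¹ (inv_ne_one.mpr h1)), ?_⟩
    simp [hw, mul_assoc]

end Coprod

/-- Two nontrivial elements of `F₂` have conjugates with a nontrivial commutator. -/
theorem exists_commutator_ne_one (u v : FreeGroup (Fin 2)) (hu : u ≠ 1) (hv : v ≠ 1) :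
    ∃ g h : FreeGroup (Fin 2), (g * u * g⁻¹) * (h * v * h⁻¹) * (g * u * g⁻¹)⁻¹ * (h * v * h⁻¹)⁻¹ ≠
      1 := by
  let e := freeGroupEquivCoprodI (ι := Fin 2)
  have hu' : e u ≠ 1 := fun h => hu (by simpa using h)
  have hv' : e v ≠ 1 := fun h => hv (by simpa using h)
  obtain ⟨g, w, hw⟩ := exists_conj (e u) hu' 0
  obtain ⟨h, w', hw'⟩ := exists_conj (e v) hv' 1
  have h01 : (0 : Fin 2) ≠ 1 := by decide
  have key := neWord_prod_ne_one (NeWord.append (NeWord.append w h01 w') h01.symm
    (NeWord.append w.inv h01 w'.inv))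
  refine ⟨e.symm g, e.symm h, fun hc => key ?_⟩
  have h2 := congrArg e hc
  rw [map_one] at h2
  simp only [map_mul, map_inv, MulEquiv.apply_symm_apply] at h2
  rw [← hw, ← hw'] at h2
  simp only [NeWord.append_prod, NeWord.inv_prod]
  simpa [mul_assoc] using h2

/-- Every finite set of nontrivial elements of `F₂` has a nontrivial element in the intersection of
the normal closures of its elements. -/
theorem exists_mem_normalClosure (s : Finset (FreeGroup (Fin 2))) (hs : ∀ w ∈ s, w ≠ 1) :
    ∃ z : FreeGroup (Fin 2), z ≠ 1 ∧ ∀ w ∈ s, z ∈ Subgroup.normalClosure {w} := by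
  classical
  induction s using Finset.induction_on with
  | empty => exact ⟨FreeGroup.of 0, FreeGroup.of_ne_one _, by simp⟩
  | insert w s hws ih =>
    obtain ⟨z, hz, hzs⟩ := ih fun x hx => hs x (Finset.mem_insert_of_mem hx)
    obtain ⟨g, h, hgh⟩ := exists_commutator_ne_one w z (hs w (Finset.mem_insert_self _ _)) hz
    refine ⟨_, hgh, fun x hx => ?_⟩
    have hmem : ∀ (N : Subgroup (FreeGroup (Fin 2))) [N.Normal],
        w ∈ N ∨ z ∈ N →
          (g * w * g⁻¹) * (h * z * h⁻¹) * (g * w * g⁻¹)⁻¹ * (h * z * h⁻¹)⁻¹ ∈ N := by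
      intro N hN hwz
      rcases hwz with hw | hz'
      · have h1 : g * w * g⁻¹ ∈ N := hN.conj_mem _ hw _
        have h2 := hN.conj_mem _ (N.inv_mem h1) (h * z * h⁻¹)
        have h3 := N.mul_mem h1 h2
        simpa [mul_assoc] using h3
      · have h1 : h * z * h⁻¹ ∈ N := hN.conj_mem _ hz' _
        have h2 := hN.conj_mem _ h1 (g * w * g⁻¹)
        exact N.mul_mem h2 (N.inv_mem h1)
    rcases Finset.mem_insert.1 hx with rfl | hx
    · exact hmem _ (Or.inl (Subgroup.subset_normalClosure rfl))
    · exact hmem _ (Or.inr (hzs x hx))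

/-- The groups `Γ i` satisfy no common law: for every nontrivial word `w` in two letters there are
`i` and two elements of `Γ i` at which the value of `w` is not the identity. -/
def NoCommonLaw {ι : Type*} (Γ : ι → Type*) [∀ i, Group (Γ i)] : Prop :=
  ∀ w : FreeGroup (Fin 2), w ≠ 1 → ∃ (i : ι) (x y : Γ i), FreeGroup.lift ![x, y] w ≠ 1

/-- A family of groups without common law separates finite sets of nontrivial elements. -/
theorem NoCommonLaw.separates {ι : Type*} {Γ : ι → Type*} [∀ i, Group (Γ i)]
    (h : NoCommonLaw Γ) (s : Finset (FreeGroup (Fin 2))) (hs : ∀ w ∈ s, w ≠ 1) :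
    ∃ (i : ι) (x y : Γ i), ∀ w ∈ s, FreeGroup.lift ![x, y] w ≠ 1 := by
  obtain ⟨z, hz, hzs⟩ := exists_mem_normalClosure s hs
  obtain ⟨i, x, y, hi⟩ := h z hz
  refine ⟨i, x, y, fun w hw hw1 => hi ?_⟩
  have : Subgroup.normalClosure {w} ≤ (FreeGroup.lift ![x, y]).ker :=
    Subgroup.normalClosure_le_normal (by simpa [MonoidHom.mem_ker] using hw1)
  exact this (hzs w hw)

end Vale.Agent.P215.H580
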