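import Mathlib

/-!
# From locally consistent potentials to globally consistent ones

`W` is a space in which small paths with the same end points are homotopic.  A map `T` which
attaches to each point `x` of a space `X` over `W` a homotopy class of paths from a base point to
the image of `x`, and which is compatible with small paths, is compatible with all paths of `X`.
-/

noncomputable section

namespace Vale.Agent.P215.H580

open Set Topology unitInterval

variable {X Y W : Type*} [TopologicalSpace X] [TopologicalSpace Y] [TopologicalSpace W]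

/-- Homotopy classes of paths. -/
abbrev Cls (w w' : W) := Path.Homotopic.Quotient w w'

/-- Small paths with the same end points are homotopic. -/
def Slsc (W : Type*) [TopologicalSpace W] : Prop :=
  ∀ w : W, ∃ N ∈ 𝓝 w, ∀ (a b : W) (γ₁ γ₂ : Path a b), range γ₁ ⊆ N → range γ₂ ⊆ N →
    γ₁.Homotopic γ₂

/-- In a contractible subspace, two paths with the same end points are homotopic. -/
theorem homotopic_of_contractible {N : Set W} [ContractibleSpace N] {a b : W} (γ₁ γ₂ : Path a b)
    (h₁ : range γ₁ ⊆ N) (h₂ : range γ₂ ⊆ N) : γ₁.Homotopic γ₂ := by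
  have ha : a ∈ N := h₁ ⟨0, γ₁.source⟩
  have hb : b ∈ N := h₁ ⟨1, γ₁.target⟩
  let δ₁ : Path (⟨a, ha⟩ : N) ⟨b, hb⟩ :=
    ⟨⟨fun t => ⟨γ₁ t, h₁ ⟨t, rfl⟩⟩, γ₁.continuous.subtype_mk _⟩,
      Subtype.ext γ₁.source, Subtype.ext γ₁.target⟩
  let δ₂ : Path (⟨a, ha⟩ : N) ⟨b, hb⟩ :=
    ⟨⟨fun t => ⟨γ₂ t, h₂ ⟨t, rfl⟩⟩, γ₂.continuous.subtype_mk _⟩,
      Subtype.ext γ₂.source, Subtype.ext γ₂.target⟩
  have h := (SimplyConnectedSpace.paths_homotopic δ₁ δ₂).map
    (⟨Subtype.val, continuous_subtype_val⟩ : C(N, W))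
  have e₁ : δ₁.map (ContinuousMap.continuous ⟨Subtype.val, continuous_subtype_val⟩) = γ₁ := by
    ext t; rfl
  have e₂ : δ₂.map (ContinuousMap.continuous ⟨Subtype.val, continuous_subtype_val⟩) = γ₂ := by
    ext t; rfl
  rwa [e₁, e₂] at h

theorem slsc_of_slc [StronglyLocallyContractibleSpace W] : Slsc W := by
  intro w
  obtain ⟨N, ⟨hN, hc⟩, -⟩ := (contractible_basis w).mem_iff.1 (Filter.univ_mem (f := 𝓝 w))
  exact ⟨N, hN, fun a b γ₁ γ₂ h₁ h₂ => homotopic_of_contractible γ₁ γ₂ h₁ h₂⟩

theorem cls_cancel_right {a b c : W} {p q : Cls a b} (r : Cls b c) :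
    p.trans r = q.trans r ↔ p = q := by
  constructor
  · intro h
    have := congrArg (fun x => x.trans r.symm) h
    simpa using this
  · rintro rfl; rfl

/-- **From local to global.** -/
theorem local_to_global (hW : Slsc W) (f : C(X, W)) {w₀ : W} (T : ∀ x, Cls w₀ (f x))
    (hT : ∀ x₀, ∀ N ∈ 𝓝 (f x₀), ∀ᶠ x in 𝓝 x₀, ∃ δ : Path (f x₀) (f x),
      range δ ⊆ N ∧ T x = (T x₀).trans (.mk δ)) {x y : X} (γ : Path x y) :
    T y = (T x).trans (.mk (γ.map f.continuous)) := by
  let S : I → Prop := fun t =>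
    T (γ t) = (T (γ 0)).trans (.mk ((γ.subpath 0 t).map f.continuous))
  have hloc : ∀ t₀, ∀ᶠ t in 𝓝 t₀, (S t ↔ S t₀) := by
    intro t₀
    obtain ⟨N, hN, hhom⟩ := hW (f (γ t₀))
    have h1 := γ.continuous.continuousAt.eventually (hT (γ t₀) N hN)
    have h2 : ∀ᶠ t in 𝓝 t₀, uIcc t₀ t ⊆ (fun s => f (γ s)) ⁻¹' N := by
      have hc : Continuous fun s => f (γ s) := f.continuous.comp γ.continuous
      have h3 : Filter.Tendsto (fun t => uIcc t₀ t) (𝓝 t₀) (𝓝 t₀).smallSets :=
        Filter.Tendsto.uIcc tendsto_const_nhds Filter.tendsto_id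
      exact h3.eventually (Filter.eventually_smallSets_subset.2
        (hc.continuousAt.preimage_mem_nhds hN))
    filter_upwards [h1, h2] with t ⟨δ, hδ, hTt⟩ hsub
    have hδ' : δ.Homotopic ((γ.subpath t₀ t).map f.continuous) := by
      refine hhom _ _ _ _ hδ ?_
      rintro _ ⟨s, rfl⟩
      have : γ.subpath t₀ t s ∈ γ '' uIcc t₀ t := by
        rw [← Path.range_subpath]; exact ⟨s, rfl⟩
      obtain ⟨r, hr, hrs⟩ := this
      change f (γ.subpath t₀ t s) ∈ N
      rw [← hrs]
      exact hsub hr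
    have hTt' : T (γ t) = (T (γ t₀)).trans (.mk ((γ.subpath t₀ t).map f.continuous)) := by
      rw [hTt, Path.Homotopic.Quotient.eq.2 hδ']
    have hsp : (.mk ((γ.subpath 0 t).map f.continuous) : Cls (f (γ 0)) (f (γ t))) =
        (Path.Homotopic.Quotient.mk ((γ.subpath 0 t₀).map f.continuous)).trans
          (.mk ((γ.subpath t₀ t).map f.continuous)) := by
      rw [← Path.Homotopic.Quotient.mk_trans, ← Path.map_trans, Path.Homotopic.Quotient.eq]
      exact (Path.Homotopic.map ⟨Path.Homotopy.subpathTransSubpath γ 0 t₀ t⟩ f).symm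
    change T (γ t) = _ ↔ T (γ t₀) = _
    rw [hTt', hsp, ← Path.Homotopic.Quotient.trans_assoc, cls_cancel_right]
  have h0 : S 0 := by
    change T (γ 0) = _
    rw [Path.subpath_self]
    have : (Path.refl (γ 0)).map f.continuous = Path.refl (f (γ 0)) := by ext; rfl
    rw [this, Path.Homotopic.Quotient.mk_refl, Path.Homotopic.Quotient.trans_refl]
  have hclopen : IsClopen {t | S t} := by
    constructor
    · rw [← isOpen_compl_iff, isOpen_iff_mem_nhds]
      intro t₀ ht₀
      filter_upwards [hloc t₀] with t ht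
      exact fun h => ht₀ (ht.1 h)
    · rw [isOpen_iff_mem_nhds]
      intro t₀ ht₀
      filter_upwards [hloc t₀] with t ht
      exact ht.2 ht₀
  have huniv := hclopen.eq_univ ⟨0, h0⟩
  have h1 : S 1 := by
    have : (1 : I) ∈ {t | S t} := by rw [huniv]; trivial
    exact this
  have key : ∀ (x' y' : X) (hx : x' = x) (hy : y' = y),
      T y' = (T x').trans (.mk ((γ.cast hx hy).map f.continuous)) →
      T y = (T x).trans (.mk (γ.map f.continuous)) := by
    rintro x' y' rfl rfl h
    exact h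
  refine key _ _ γ.source γ.target ?_
  have h1' : T (γ 1) = (T (γ 0)).trans (.mk ((γ.subpath 0 1).map f.continuous)) := h1
  rw [Path.subpath_zero_one] at h1'
  exact h1'

/-! ### Maps which kill the fundamental groupoid -/

/-- The images under `f` of two paths with the same end points are homotopic. -/
def PiTriv (f : C(X, W)) : Prop :=
  ∀ (x y : X) (γ₁ γ₂ : Path x y), (γ₁.map f.continuous).Homotopic (γ₂.map f.continuous)

theorem PiTriv.comp {f : C(X, W)} (hf : PiTriv f) (g : C(Y, X)) : PiTriv (f.comp g) :=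
  fun x y γ₁ γ₂ => hf (g x) (g y) (γ₁.map g.continuous) (γ₂.map g.continuous)

theorem PiTriv.congr {f g : C(X, W)} (hg : PiTriv g) (h : ∀ x, f x = g x) : PiTriv f := by
  have : f = g := ContinuousMap.ext h
  rwa [this]

theorem PiTriv.of_homotopy {f g : C(X, W)} (hg : PiTriv g) (H : f.Homotopy g) : PiTriv f := by
  intro x y γ₁ γ₂
  have e1 := Path.Homotopic.Quotient.eq.2 (Path.Homotopic.map_trans_evalAt H γ₁)
  have e2 := Path.Homotopic.Quotient.eq.2 (Path.Homotopic.map_trans_evalAt H γ₂)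
  have e3 := Path.Homotopic.Quotient.eq.2 (hg x y γ₁ γ₂)
  rw [← Path.Homotopic.Quotient.eq, ← cls_cancel_right (.mk (H.evalAt y))]
  rw [Path.Homotopic.Quotient.mk_trans, Path.Homotopic.Quotient.mk_trans] at e1 e2
  exact e1.trans ((congrArg _ e3).trans e2.symm)

theorem PiTriv.of_simplyConnected [SimplyConnectedSpace X] (f : C(X, W)) : PiTriv f :=
  fun _ _ γ₁ γ₂ => (SimplyConnectedSpace.paths_homotopic γ₁ γ₂).map f

end Vale.Agent.P215.H580
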