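import Mathlib
import Vale.Agent.P215.H580.Lawless

/-!
# The finite symmetric groups have no common law
-/

namespace Vale.Agent.P215.H580

/-- A partial injection of a finite type extends to a permutation. -/
theorem exists_perm {α : Type*} [Fintype α] [DecidableEq α] (R : α → α → Prop)
    (h1 : ∀ x y y', R x y → R x y' → y = y') (h2 : ∀ x x' y, R x y → R x' y → x = x') :
    ∃ σ : Equiv.Perm α, ∀ x y, R x y → σ x = y := by
  classical
  let f : {x // ∃ y, R x y} → {y // ∃ x, R x y} :=
    fun x => ⟨x.2.choose, x.1, x.2.choose_spec⟩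
  have hf : Function.Bijective f := by
    constructor
    · rintro ⟨x, hx⟩ ⟨x', hx'⟩ h
      have h3 : hx.choose = hx'.choose := congrArg Subtype.val h
      apply Subtype.ext
      exact h2 x x' hx.choose hx.choose_spec (by rw [h3]; exact hx'.choose_spec)
    · rintro ⟨y, x, hxy⟩
      refine ⟨⟨x, y, hxy⟩, Subtype.ext ?_⟩
      exact h1 x _ _ (⟨y, hxy⟩ : ∃ y, R x y).choose_spec hxy
  let e := Equiv.ofBijective f hf
  refine ⟨e.extendSubtype, fun x y hxy => ?_⟩
  rw [Equiv.extendSubtype_apply_of_mem e x ⟨y, hxy⟩]
  exact h1 x _ _ (⟨y, hxy⟩ : ∃ y, R x y).choose_spec hxy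

/-- For every nontrivial element of a free group there is a finite permutation representation in
which it acts nontrivially. -/
theorem exists_perm_rep {α : Type*} [DecidableEq α] (w : FreeGroup α) (hw : w ≠ 1) :
    ∃ (n : ℕ) (σ : α → Equiv.Perm (Fin n)), FreeGroup.lift σ w ≠ 1 := by
  classical
  set L := w.toWord with hL
  have hred : FreeGroup.IsReduced L := FreeGroup.isReduced_toWord
  have hlen : L.length ≠ 0 := by
    intro h
    apply hw
    rw [← FreeGroup.toWord_eq_nil_iff]
    exact List.length_eq_zero_iff.1 h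
  -- consecutive letters do not cancel
  have hchain : ∀ (i : ℕ) (hi : i + 1 < L.length), L[i].1 = L[i + 1].1 → L[i].2 = L[i + 1].2 := by
    intro i hi
    exact List.isChain_iff_getElem.1 hred i hi
  let R : α → Fin (L.length + 1) → Fin (L.length + 1) → Prop := fun a x y =>
    (∃ (i : ℕ) (hi : i < L.length), L[i] = (a, true) ∧ x.val = i + 1 ∧ y.val = i) ∨
    (∃ (i : ℕ) (hi : i < L.length), L[i] = (a, false) ∧ x.val = i ∧ y.val = i + 1)
  have hR1 : ∀ a x y y', R a x y → R a x y' → y = y' := by
    rintro a x y y' (⟨i, hi, h1, h2, h3⟩ | ⟨i, hi, h1, h2, h3⟩)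
      (⟨j, hj, h4, h5, h6⟩ | ⟨j, hj, h4, h5, h6⟩)
    · exact Fin.ext (by omega)
    · exfalso
      obtain rfl : j = i + 1 := by omega
      have := hchain i hj (by rw [h1, h4])
      rw [h1, h4] at this
      simp at this
    · exfalso
      obtain rfl : i = j + 1 := by omega
      have := hchain j hi (by rw [h1, h4])
      rw [h1, h4] at this
      simp at this
    · exact Fin.ext (by omega)
  have hR2 : ∀ a x x' y, R a x y → R a x' y → x = x' := by
    rintro a x x' y (⟨i, hi, h1, h2, h3⟩ | ⟨i, hi, h1, h2, h3⟩)
      (⟨j, hj, h4, h5, h6⟩ | ⟨j, hj, h4, h5, h6⟩)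
    · exact Fin.ext (by omega)
    · exfalso
      obtain rfl : i = j + 1 := by omega
      have := hchain j hi (by rw [h1, h4])
      rw [h1, h4] at this
      simp at this
    · exfalso
      obtain rfl : j = i + 1 := by omega
      have := hchain i hj (by rw [h1, h4])
      rw [h1, h4] at this
      simp at this
    · exact Fin.ext (by omega)
  choose σ hσ using fun a => exists_perm (R a) (hR1 a) (hR2 a)
  refine ⟨L.length + 1, σ, fun h => ?_⟩
  -- the suffixes of the word move the last point
  have key : ∀ (k j : ℕ) (hj : j + k = L.length),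
      FreeGroup.lift σ (FreeGroup.mk (L.drop j)) (Fin.last L.length) =
        ⟨j, by omega⟩ := by
    intro k
    induction k with
    | zero =>
      intro j hj
      have : L.drop j = [] := List.drop_eq_nil_iff.2 (by omega)
      rw [this]
      have h1 : (FreeGroup.mk [] : FreeGroup α) = 1 := rfl
      rw [h1, map_one]
      exact Fin.ext (by simp; omega)
    | succ k ih =>
      intro j hj
      have hj' : j < L.length := by omega
      rw [List.drop_eq_getElem_cons hj']
      have h1 : (FreeGroup.mk (L[j] :: L.drop (j + 1)) : FreeGroup α) =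
          FreeGroup.mk [L[j]] * FreeGroup.mk (L.drop (j + 1)) := by
        rw [FreeGroup.mul_mk]
        rfl
      rw [h1, map_mul, Equiv.Perm.mul_apply, ih (j + 1) (by omega)]
      rw [FreeGroup.lift_mk]
      rcases hb : L[j] with ⟨a, b⟩
      cases b
      · simp only [List.map_cons, List.map_nil, List.prod_cons, List.prod_nil, mul_one,
          cond_false]
        rw [Equiv.Perm.inv_eq_iff_eq]
        exact (hσ a _ _ (Or.inr ⟨j, hj', hb, rfl, rfl⟩)).symm
      · simp only [List.map_cons, List.map_nil, List.prod_cons, List.prod_nil, mul_one,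
          cond_true]
        exact hσ a _ _ (Or.inl ⟨j, hj', hb, rfl, rfl⟩)
  have h0 := key L.length 0 (by omega)
  have hmk : FreeGroup.mk (L.drop 0) = w := by
    rw [List.drop_zero, hL, FreeGroup.mk_toWord]
  rw [hmk, h, Equiv.Perm.one_apply] at h0
  have := congrArg Fin.val h0
  simp only [Fin.val_last] at this
  exact hlen this

/-- The finite symmetric groups satisfy no common law. -/
theorem noCommonLaw_perm : NoCommonLaw fun n : ℕ => Equiv.Perm (Fin n) := by
  intro w hw
  obtain ⟨n, σ, hσ⟩ := exists_perm_rep w hw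
  refine ⟨n, σ 0, σ 1, ?_⟩
  have : ![σ 0, σ 1] = σ := by
    ext i : 1
    fin_cases i <;> rfl
  rwa [this]

end Vale.Agent.P215.H580
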