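import Vale.Agent.P215.H580.Union
import Vale.Agent.P215.H562.Cells

/-!
# Planar pieces of the blocks

The boundary of the square `[0, L]²` is path connected, and the arc `J` obtained from it by removing
the open segment `{L} × (1, 3)` is contractible.
-/

noncomputable section

namespace Vale.Agent.P215.H580

open Set Topology unitInterval Vale.Agent.P215.H562 Vale.Agent.P215.H788

/-- The arc `∂[0, L]² ∖ {L} × (1, 3)`. -/
def arcJ (L : ℝ) : Set (ℝ × ℝ) := {p | p ∈ bdSq L ∧ ¬ (p.1 = L ∧ p.2 ∈ Ioo 1 3)}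

/-- A parametrisation of the arc. -/
def psi (L s : ℝ) : ℝ × ℝ :=
  (L - min (max (s - 1) 0) L + min (max (s - (1 + 2 * L)) 0) L,
    1 - min (max s 0) 1 + min (max (s - (1 + L)) 0) L - min (max (s - (1 + 3 * L)) 0) (L - 3))

theorem continuous_psi (L : ℝ) : Continuous (psi L) := by
  unfold psi
  fun_prop

variable {L : ℝ}

theorem psi_1 (hL : 4 ≤ L) {s : ℝ} (h0 : 0 ≤ s) (h1 : s ≤ 1) : psi L s = (L, 1 - s) := by
  unfold psi
  rw [max_eq_right (by linarith : s - 1 ≤ 0), max_eq_right (by linarith : s - (1 + 2 * L) ≤ 0),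
    max_eq_left h0, max_eq_right (by linarith : s - (1 + L) ≤ 0),
    max_eq_right (by linarith : s - (1 + 3 * L) ≤ 0), min_eq_left (by linarith : (0 : ℝ) ≤ L),
    min_eq_left h1, min_eq_left (by linarith : (0 : ℝ) ≤ L - 3)]
  ext <;> simp

theorem psi_2 (hL : 4 ≤ L) {s : ℝ} (h0 : 1 ≤ s) (h1 : s ≤ 1 + L) :
    psi L s = (1 + L - s, 0) := by
  unfold psi
  rw [max_eq_left (by linarith : 0 ≤ s - 1), max_eq_right (by linarith : s - (1 + 2 * L) ≤ 0),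
    max_eq_left (by linarith : 0 ≤ s), max_eq_right (by linarith : s - (1 + L) ≤ 0),
    max_eq_right (by linarith : s - (1 + 3 * L) ≤ 0), min_eq_left (by linarith : (0 : ℝ) ≤ L),
    min_eq_left (by linarith : s - 1 ≤ L), min_eq_right (by linarith : 1 ≤ s),
    min_eq_left (by linarith : (0 : ℝ) ≤ L - 3)]
  ext <;> simp
  ring

theorem psi_3 (hL : 4 ≤ L) {s : ℝ} (h0 : 1 + L ≤ s) (h1 : s ≤ 1 + 2 * L) :
    psi L s = (0, s - (1 + L)) := by
  unfold psi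
  rw [max_eq_left (by linarith : 0 ≤ s - 1), max_eq_right (by linarith : s - (1 + 2 * L) ≤ 0),
    max_eq_left (by linarith : 0 ≤ s), max_eq_left (by linarith : 0 ≤ s - (1 + L)),
    max_eq_right (by linarith : s - (1 + 3 * L) ≤ 0), min_eq_left (by linarith : (0 : ℝ) ≤ L),
    min_eq_right (by linarith : L ≤ s - 1), min_eq_right (by linarith : 1 ≤ s),
    min_eq_left (by linarith : s - (1 + L) ≤ L),
    min_eq_left (by linarith : (0 : ℝ) ≤ L - 3)]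
  ext <;> simp

theorem psi_4 (hL : 4 ≤ L) {s : ℝ} (h0 : 1 + 2 * L ≤ s) (h1 : s ≤ 1 + 3 * L) :
    psi L s = (s - (1 + 2 * L), L) := by
  unfold psi
  rw [max_eq_left (by linarith : 0 ≤ s - 1), max_eq_left (by linarith : 0 ≤ s - (1 + 2 * L)),
    max_eq_left (by linarith : 0 ≤ s), max_eq_left (by linarith : 0 ≤ s - (1 + L)),
    max_eq_right (by linarith : s - (1 + 3 * L) ≤ 0),
    min_eq_right (by linarith : L ≤ s - 1), min_eq_right (by linarith : 1 ≤ s),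
    min_eq_right (by linarith : L ≤ s - (1 + L)), min_eq_left (by linarith : s - (1 + 2 * L) ≤ L),
    min_eq_left (by linarith : (0 : ℝ) ≤ L - 3)]
  ext <;> simp

theorem psi_5 (hL : 4 ≤ L) {s : ℝ} (h0 : 1 + 3 * L ≤ s) (h1 : s ≤ 4 * L - 2) :
    psi L s = (L, 4 * L + 1 - s) := by
  unfold psi
  rw [max_eq_left (by linarith : 0 ≤ s - 1), max_eq_left (by linarith : 0 ≤ s - (1 + 2 * L)),
    max_eq_left (by linarith : 0 ≤ s), max_eq_left (by linarith : 0 ≤ s - (1 + L)),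
    max_eq_left (by linarith : 0 ≤ s - (1 + 3 * L)),
    min_eq_right (by linarith : L ≤ s - 1), min_eq_right (by linarith : 1 ≤ s),
    min_eq_right (by linarith : L ≤ s - (1 + L)), min_eq_right (by linarith : L ≤ s - (1 + 2 * L)),
    min_eq_left (by linarith : s - (1 + 3 * L) ≤ L - 3)]
  ext <;> simp
  ring

theorem psi_cases (hL : 4 ≤ L) {s : ℝ} (hs : s ∈ Icc 0 (4 * L - 2)) :
    (s ≤ 1 ∧ psi L s = (L, 1 - s)) ∨ (1 < s ∧ s ≤ 1 + L ∧ psi L s = (1 + L - s, 0)) ∨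
    (1 + L < s ∧ s ≤ 1 + 2 * L ∧ psi L s = (0, s - (1 + L))) ∨
    (1 + 2 * L < s ∧ s ≤ 1 + 3 * L ∧ psi L s = (s - (1 + 2 * L), L)) ∨
    (1 + 3 * L < s ∧ psi L s = (L, 4 * L + 1 - s)) := by
  obtain ⟨h0, h1⟩ := hs
  rcases le_or_gt s 1 with a | a
  · exact Or.inl ⟨a, psi_1 hL h0 a⟩
  rcases le_or_gt s (1 + L) with b | b
  · exact Or.inr (Or.inl ⟨a, b, psi_2 hL a.le b⟩)
  rcases le_or_gt s (1 + 2 * L) with c | c
  · exact Or.inr (Or.inr (Or.inl ⟨b, c, psi_3 hL b.le c⟩))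
  rcases le_or_gt s (1 + 3 * L) with d | d
  · exact Or.inr (Or.inr (Or.inr (Or.inl ⟨c, d, psi_4 hL c.le d⟩)))
  · exact Or.inr (Or.inr (Or.inr (Or.inr ⟨d, psi_5 hL d.le h1⟩)))

theorem psi_mem (hL : 4 ≤ L) {s : ℝ} (hs : s ∈ Icc 0 (4 * L - 2)) : psi L s ∈ arcJ L := by
  have h0 := hs.1
  have h1 := hs.2
  rcases psi_cases hL hs with ⟨a, h⟩ | ⟨a, b, h⟩ | ⟨a, b, h⟩ | ⟨a, b, h⟩ | ⟨a, h⟩ <;> rw [h] <;>
    refine ⟨⟨⟨⟨?_, ?_⟩, ⟨?_, ?_⟩⟩, ?_⟩, ?_⟩ <;> simp only [mem_Ioo] <;> try linarith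
  · exact Or.inr (Or.inl trivial)
  · rintro ⟨-, h2, h3⟩; linarith
  · exact Or.inr (Or.inr (Or.inl trivial))
  · rintro ⟨-, h2, h3⟩; linarith
  · exact Or.inl trivial
  · rintro ⟨h4, -⟩; linarith
  · exact Or.inr (Or.inr (Or.inr trivial))
  · rintro ⟨-, h2, h3⟩; linarith
  · exact Or.inr (Or.inl trivial)
  · rintro ⟨-, h2, h3⟩; linarith

theorem psi_inj (hL : 4 ≤ L) {s t : ℝ} (hs : s ∈ Icc 0 (4 * L - 2)) (ht : t ∈ Icc 0 (4 * L - 2))
    (h : psi L s = psi L t) : s = t := by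
  have hs0 := hs.1
  have hs1 := hs.2
  have ht0 := ht.1
  have ht1 := ht.2
  rcases psi_cases hL hs with ⟨a, h'⟩ | ⟨a, b, h'⟩ | ⟨a, b, h'⟩ | ⟨a, b, h'⟩ | ⟨a, h'⟩ <;>
  rcases psi_cases hL ht with ⟨c, h''⟩ | ⟨c, d, h''⟩ | ⟨c, d, h''⟩ | ⟨c, d, h''⟩ | ⟨c, h''⟩ <;>
  rw [h', h'', Prod.mk.injEq] at h <;> linarith [h.1, h.2]

theorem psi_surj (hL : 4 ≤ L) {p : ℝ × ℝ} (hp : p ∈ arcJ L) :
    ∃ s ∈ Icc 0 (4 * L - 2), psi L s = p := by
  obtain ⟨p1, p2⟩ := p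
  obtain ⟨⟨⟨⟨a, b⟩, ⟨c, d⟩⟩, h⟩, h'⟩ := hp
  simp only [mem_Ioo] at a b c d h h'
  rcases h with h | h | h | h
  · subst h
    exact ⟨1 + L + p2, ⟨by linarith, by linarith⟩, by
      rw [psi_3 hL (by linarith) (by linarith)]; ext <;> simp⟩
  · subst h
    rcases le_or_gt p2 1 with e | e
    · exact ⟨1 - p2, ⟨by linarith, by linarith⟩, by
        rw [psi_1 hL (by linarith) (by linarith)]; ext <;> simp⟩
    · have e' : 3 ≤ p2 := by
        by_contra hne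
        exact h' ⟨rfl, e, not_le.1 hne⟩
      exact ⟨4 * p1 + 1 - p2, ⟨by linarith, by linarith⟩, by
        rw [psi_5 hL (by linarith) (by linarith)]; ext <;> simp⟩
  · subst h
    exact ⟨1 + L - p1, ⟨by linarith, by linarith⟩, by
      rw [psi_2 hL (by linarith) (by linarith)]; ext <;> simp⟩
  · subst h
    exact ⟨1 + 2 * p2 + p1, ⟨by linarith, by linarith⟩, by
      rw [psi_4 hL (by linarith) (by linarith)]; ext <;> simp⟩

theorem arcJ_eq (hL : 4 ≤ L) : arcJ L = psi L '' Icc 0 (4 * L - 2) := by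
  ext p
  constructor
  · intro hp
    obtain ⟨s, hs, h⟩ := psi_surj hL hp
    exact ⟨s, hs, h⟩
  · rintro ⟨s, hs, rfl⟩
    exact psi_mem hL hs

theorem contractible_arcJ (hL : 4 ≤ L) : ContractibleSpace (arcJ L) := by
  let g : Icc 0 (4 * L - 2) → arcJ L := fun s => ⟨psi L s, psi_mem hL s.2⟩
  have hg : Continuous g := ((continuous_psi L).comp continuous_subtype_val).subtype_mk _
  have hb : Function.Bijective g := by
    constructor
    · intro s t h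
      exact Subtype.ext (psi_inj hL s.2 t.2 (congrArg Subtype.val h))
    · rintro ⟨p, hp⟩
      obtain ⟨s, hs, h⟩ := psi_surj hL hp
      exact ⟨⟨s, hs⟩, Subtype.ext h⟩
  let e : Icc 0 (4 * L - 2) ≃ₜ arcJ L :=
    Continuous.homeoOfEquivCompactToT2 (f := Equiv.ofBijective g hb) hg
  have hc : ContractibleSpace (Icc 0 (4 * L - 2)) :=
    (convex_Icc _ _).contractibleSpace ⟨0, ⟨le_rfl, by linarith⟩⟩
  exact e.symm.contractibleSpace

theorem isPathConnected_arcJ (hL : 4 ≤ L) : IsPathConnected (arcJ L) := by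
  rw [arcJ_eq hL]
  refine IsPathConnected.image ?_ (continuous_psi L)
  exact (convex_Icc _ _).isPathConnected ⟨0, ⟨le_rfl, by linarith⟩⟩

theorem isPathConnected_bdSq (hL : 4 ≤ L) : IsPathConnected (bdSq L) := by
  have h1 : bdSq L = arcJ L ∪ {L} ×ˢ Icc 1 3 := by
    ext ⟨p1, p2⟩
    constructor
    · intro h
      by_cases h' : p1 = L ∧ p2 ∈ Ioo 1 3
      · exact Or.inr ⟨h'.1, ⟨h'.2.1.le, h'.2.2.le⟩⟩
      · exact Or.inl ⟨h, h'⟩
    · rintro (h | ⟨h1, h2, h3⟩)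
      · exact h.1
      · change p1 = L at h1
        subst h1
        exact ⟨⟨⟨by linarith, le_rfl⟩, ⟨by linarith, by linarith⟩⟩, Or.inr (Or.inl rfl)⟩
  rw [h1]
  refine (isPathConnected_arcJ hL).union ?_ ⟨(L, 1), ⟨⟨⟨⟨by linarith, le_rfl⟩, ⟨by norm_num,
    by linarith⟩⟩, Or.inr (Or.inl rfl)⟩, fun h => lt_irrefl _ h.2.1⟩, ⟨rfl, ⟨le_rfl, by norm_num⟩⟩⟩
  exact ((convex_singleton L).prod (convex_Icc 1 3)).isPathConnected
    ⟨(L, 1), ⟨rfl, ⟨le_rfl, by norm_num⟩⟩⟩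

theorem convex_sq (L : ℝ) : Convex ℝ (Sq L) := (convex_Icc 0 L).prod (convex_Icc 0 L)

theorem convex_fib : Convex ℝ Fib := (convex_Icc 1 3).prod (convex_Icc 1 3)

theorem fib_nonempty : ((2 : ℝ), (2 : ℝ)) ∈ Fib := ⟨⟨by norm_num, by norm_num⟩, by norm_num,
  by norm_num⟩

theorem contractible_fib : ContractibleSpace Fib := convex_fib.contractibleSpace ⟨_, fib_nonempty⟩

theorem isPathConnected_fib : IsPathConnected Fib := convex_fib.isPathConnected ⟨_, fib_nonempty⟩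

theorem arcJ_subset : arcJ L ⊆ bdSq L := fun _ h => h.1

theorem isPathConnected_bdFib : IsPathConnected bdFib := by
  have hl : IsPathConnected ({(1 : ℝ)} ×ˢ Icc (1 : ℝ) 3) :=
    ((convex_singleton (1 : ℝ)).prod (convex_Icc 1 3)).isPathConnected
      ⟨(1, 1), rfl, le_rfl, by norm_num⟩
  have hr : IsPathConnected ({(3 : ℝ)} ×ˢ Icc (1 : ℝ) 3) :=
    ((convex_singleton (3 : ℝ)).prod (convex_Icc 1 3)).isPathConnected
      ⟨(3, 1), rfl, le_rfl, by norm_num⟩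
  have hb : IsPathConnected (Icc (1 : ℝ) 3 ×ˢ {(1 : ℝ)}) :=
    ((convex_Icc (1 : ℝ) 3).prod (convex_singleton 1)).isPathConnected
      ⟨(1, 1), ⟨le_rfl, by norm_num⟩, rfl⟩
  have ht : IsPathConnected (Icc (1 : ℝ) 3 ×ˢ {(3 : ℝ)}) :=
    ((convex_Icc (1 : ℝ) 3).prod (convex_singleton 3)).isPathConnected
      ⟨(1, 3), ⟨le_rfl, by norm_num⟩, rfl⟩
  have h1 := hl.union hb ⟨(1, 1), ⟨rfl, le_rfl, by norm_num⟩, ⟨le_rfl, by norm_num⟩, rfl⟩
  have h2 := h1.union hr ⟨(3, 1), Or.inr ⟨⟨by norm_num, le_rfl⟩, rfl⟩, ⟨rfl, le_rfl, by norm_num⟩⟩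
  have h3 := h2.union ht ⟨(1, 3), Or.inl (Or.inl ⟨rfl, ⟨by norm_num, le_rfl⟩⟩),
    ⟨⟨le_rfl, by norm_num⟩, rfl⟩⟩
  have e : bdFib = {(1 : ℝ)} ×ˢ Icc (1 : ℝ) 3 ∪ Icc (1 : ℝ) 3 ×ˢ {(1 : ℝ)} ∪
      {(3 : ℝ)} ×ˢ Icc (1 : ℝ) 3 ∪ Icc (1 : ℝ) 3 ×ˢ {(3 : ℝ)} := by
    ext ⟨a, b⟩
    simp only [bdFib, Fib, mem_ofPred_eq, mem_union, mem_prod, mem_singleton_iff, mem_Icc]
    constructor
    · rintro ⟨⟨h1, h2⟩, h | h | h | h⟩ <;> tauto
    · rintro (((h | h) | h) | h)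
      · obtain ⟨rfl, h⟩ := h; norm_num [h]
      · obtain ⟨h, rfl⟩ := h; norm_num [h]
      · obtain ⟨rfl, h⟩ := h; norm_num [h]
      · obtain ⟨h, rfl⟩ := h; norm_num [h]
  rw [e]
  exact h3

end Vale.Agent.P215.H580
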