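import Vale.Agent.P215.H580.Free
import Vale.Agent.P215.H580.BaseBlock

/-!
# The fundamental group of the thickening of a capped grope is free
-/

noncomputable section

namespace Vale.Agent.P215.H580

open Set Topology unitInterval Vale.Agent.P215.H562 Vale.Agent.P215.H788
  Vale.Agent.P215.H788.CappedGrope

section Generic

variable {ι E K : Type} [TopologicalSpace ι] [DiscreteTopology ι] [NormedAddCommGroup E]
  [NormedSpace ℝ E] (D : GD ι E K)

/-- The block `i` in the disjoint union. -/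
def inc (i : ι) : C(D.R i, Pt D.R) := ⟨fun x => ⟨(i, x.1), x.2⟩, by fun_prop⟩

theorem piTriv_of_blocks (h : ∀ i, PiTriv (D.pi.comp (inc D i))) : PiTriv D.pi := by
  rintro ⟨⟨i, x⟩, hx⟩ ⟨⟨j, y⟩, hy⟩ γ₁ γ₂
  have hij : i = j := GD.Tree.path_block γ₁
  subst hij
  have hb : ∀ (γ : Path (⟨(i, x), hx⟩ : Pt D.R) ⟨(i, y), hy⟩) (t : I), (γ t).1.1 = i := by
    intro γ t
    have h : Continuous fun t => (γ t).1.1 :=
      continuous_fst.comp (continuous_subtype_val.comp γ.continuous)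
    have := PreconnectedSpace.constant (inferInstance : PreconnectedSpace I) h (x := 0) (y := t)
    rw [← this, γ.source]
  have hm : ∀ (γ : Path (⟨(i, x), hx⟩ : Pt D.R) ⟨(i, y), hy⟩) (t : I), (γ t).1.2 ∈ D.R i := by
    intro γ t
    have h := (γ t).2
    rwa [hb γ t] at h
  let low : ∀ γ : Path (⟨(i, x), hx⟩ : Pt D.R) ⟨(i, y), hy⟩,
      Path (⟨x, hx⟩ : D.R i) ⟨y, hy⟩ := fun γ =>
    ⟨⟨fun t => ⟨(γ t).1.2, hm γ t⟩, by fun_prop⟩, by
      refine Subtype.ext ?_
      change (γ 0).1.2 = x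
      rw [γ.source], by
      refine Subtype.ext ?_
      change (γ 1).1.2 = y
      rw [γ.target]⟩
  have hlow : ∀ γ, (low γ).map (inc D i).continuous = γ := by
    intro γ
    ext t
    · exact (hb γ t).symm
    · rfl
  have := h i _ _ (low γ₁) (low γ₂)
  have e : ∀ γ, (low γ).map (D.pi.comp (inc D i)).continuous = γ.map D.pi.continuous := by
    intro γ
    ext t
    have := congrArg (fun p : Path _ _ => D.pi (p t)) (hlow γ)
    exact this
  rw [e, e] at this
  exact this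

theorem joined_of_region {x y : Pt D.R} (h : x.1.1 = y.1.1) (hp : IsPathConnected (D.R x.1.1)) :
    Joined x y := by
  obtain ⟨⟨i, x⟩, hx⟩ := x
  obtain ⟨⟨j, y⟩, hy⟩ := y
  change i = j at h
  subst h
  have := isPathConnected_iff_pathConnectedSpace.1 hp
  exact (PathConnectedSpace.joined (⟨x, hx⟩ : D.R i) ⟨y, hy⟩).map (inc D i).continuous

end Generic

variable (G : CappedGrope)

/-- The thickening as a gluing. -/
def gd : GD Block H788.E (GIdx G) where
  R := G.region
  s := src G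
  t := tgt G
  A := cell G
  f := gmap G
  fin := finite_nonempty G
  cpt := isCompact_region G
  star b := (poly_region G b).star
  r x y := G.Glue x.1 y.1
  hr := glue_iff G
  hfc := continuous_gmap G
  hfa := affine_gmap G
  hAc k := (poly_cell G k).closed
  hAs k := (poly_cell G k).star
  hiso k x hx y hy := dist_gmap G k x y hx hy
  hd1 := src_disj G
  hd2 := tgt_disj G
  hd3 := src_tgt_disj G

/-- The gluings of the tree: all gluings but the plumbings. -/
def isTree : GIdx G → Prop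
  | .inl _ => True
  | .inr (.inl _) => True
  | .inr (.inr _) => False

/-- The distance of a block to the base of the first stage. -/
def rk : Block → ℕ
  | .base 0 => 0
  | .base (_ + 1) => 2
  | .handle 0 _ => 1
  | .handle (_ + 1) _ => 3
  | .cap (0, _) => 2
  | .cap (_ + 1, _) => 4

theorem rk_handle (s j : ℕ) : rk (.handle s j) = rk (.base s) + 1 := by
  cases s <;> rfl

theorem rk_next (s j : ℕ) (b : Bool) : rk (nextBlock (s, j, b)) = rk (.handle s j) + 1 := by
  cases s <;> cases b <;> simp [nextBlock, rk]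

/-- The child block of a gluing of the tree. -/
def child : GIdx G → Block
  | .inl p => .handle p.1.1 p.1.2
  | .inr (.inl t) => nextBlock t.1
  | .inr (.inr k) => .cap G.plumbings[k].1

theorem rank_of_rel {k : GIdx G} (hk : isTree G k) {x y : Pt (gd G).R} (h : (gd G).rel k x y) :
    (rk y.1.1 = rk x.1.1 + 1 ∧ y.1.1 = child G k) ∨ (rk x.1.1 = rk y.1.1 + 1 ∧ x.1.1 = child G k) := by
  obtain ⟨h1, -, h2, -⟩ := h
  rw [h1, h2]
  rcases k with p | ⟨⟨s, j, b⟩, ht⟩ | k
  · exact Or.inl ⟨rk_handle _ _, rfl⟩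
  · exact Or.inr ⟨rk_next s j b, rfl⟩
  · exact hk.elim

theorem adj_child {k : GIdx G} {a b : Pt (gd G).R} (h : (gd G).Adj (isTree G) rk k a b) :
    b.1.1 = child G k := by
  obtain ⟨h1, h2, h3⟩ := h
  rcases h2 with h2 | h2 <;> rcases rank_of_rel G h1 h2 with ⟨h4, h5⟩ | ⟨h4, h5⟩
  · exact h5
  · omega
  · omega
  · exact h5

theorem child_inj {k k' : GIdx G} (hk : isTree G k) (hk' : isTree G k')
    (h : child G k = child G k') : k = k' := by
  have hne : ∀ s j t, Block.handle s j ≠ nextBlock t := by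
    intro s j t h
    unfold nextBlock at h
    split_ifs at h
  rcases k with p | ⟨t, ht⟩ | k
  · rcases k' with p' | ⟨t', ht'⟩ | k'
    · simp only [child, Block.handle.injEq] at h
      rw [Sum.inl.injEq]
      exact Subtype.ext (Prod.ext h.1 h.2)
    · exact (hne _ _ _ h).elim
    · exact hk'.elim
  · rcases k' with p' | ⟨t', ht'⟩ | k'
    · exact (hne _ _ _ h.symm).elim
    · have : t = t' := nextBlock_inj h
      subst this
      rfl
    · exact hk'.elim
  · exact hk.elim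

/-- The cells lie in the blocks. -/
theorem cell_mem (k : GIdx G) {x : H788.E} (hx : x ∈ cell G k) :
    x ∈ G.region (src G k) ∧ gmap G k x ∈ G.region (tgt G k) := by
  have hL := four_le_L G
  obtain ⟨⟨x1, x2⟩, q, v⟩ := x
  rcases k with ⟨⟨s, j⟩, hp⟩ | ⟨⟨s, j, b⟩, ht⟩ | k
  · obtain ⟨h1, h2, h3⟩ := hx
    change q = 0 at h2
    subst h2
    refine ⟨?_, hole_handle_mem G hp h1 h3⟩
    have hj := hole_le_L G (s := s) (j := j) hp
    have hj0 : (0 : ℝ) ≤ j := Nat.cast_nonneg j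
    have hs : 0 < G.genus s := lt_of_le_of_lt (Nat.zero_le _) hp
    obtain ⟨⟨⟨a1, a2⟩, a3, a4⟩, h⟩ := h1
    change (1 : ℝ) ≤ x1 - 4 * (j : ℝ) at a1
    change x1 - 4 * (j : ℝ) ≤ 3 at a2
    change (1 : ℝ) ≤ x2 at a3
    change x2 ≤ 3 at a4
    change x1 - 4 * (j : ℝ) = 1 ∨ x1 - 4 * (j : ℝ) = 3 ∨ x2 = 1 ∨ x2 = 3 at h
    refine ⟨hs, ⟨⟨⟨by linarith, by linarith⟩, ⟨by linarith, by linarith⟩⟩, fun j' _ => ?_⟩, rfl, h3⟩
    refine not_hole_of_strip (n := j) (p := (x1, x2)) ⟨by linarith, by linarith⟩ ?_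
    rintro ⟨⟨b1, b2⟩, b3, b4⟩
    change 4 * (j : ℝ) + 1 < x1 at b1
    change x1 < 4 * (j : ℝ) + 3 at b2
    change (1 : ℝ) < x2 at b3
    change x2 < 3 at b4
    rcases h with h | h | h | h <;> linarith
  · obtain ⟨h1, h2, h3⟩ := hx
    change q = 0 at h2
    subst h2
    refine ⟨next_mem G b ht h1 h3, ?_⟩
    have hv : ((0 : ℝ), v.1) ∈ arcJ G.L := by
      obtain ⟨⟨a1, a2⟩, -⟩ := h3
      change (1 : ℝ) ≤ v.1 at a1
      change v.1 ≤ 3 at a2
      refine ⟨⟨⟨⟨le_rfl, by linarith⟩, ⟨by linarith, by linarith⟩⟩, Or.inl rfl⟩, fun h => ?_⟩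
      have : (0 : ℝ) = G.L := h.1
      linarith
    have h32 : v.2 ∈ Icc (1 : ℝ) 3 := h3.2
    cases b
    · change _ ∈ G.region (.handle s j)
      rw [← handle_eq G ht]
      exact Or.inl ⟨h1, hv, ⟨by norm_num [gmap], by norm_num [gmap]⟩, h32⟩
    · change _ ∈ G.region (.handle s j)
      rw [← handle_eq G ht]
      exact Or.inr ⟨hv, h1, ⟨by norm_num [gmap], by norm_num [gmap]⟩, h32⟩
  · have h2 := gmap_plumb G k hx
    obtain ⟨h1, h3, h4⟩ := hx
    change q = 0 at h3
    subst h3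
    have hk := plumb_le_L G k.2
    have hk0 : (0 : ℝ) ≤ ((k : ℕ) : ℝ) := Nat.cast_nonneg _
    have hc := G.isCapped _ (List.getElem_mem k.2)
    obtain ⟨⟨a1, a2⟩, a3, a4⟩ := h1
    change (1 : ℝ) ≤ x1 - 8 * ((k : ℕ) : ℝ) at a1
    change x1 - 8 * ((k : ℕ) : ℝ) ≤ 3 at a2
    change (1 : ℝ) ≤ x2 at a3
    change x2 ≤ 3 at a4
    refine ⟨⟨hc.1, ⟨⟨by linarith, by linarith⟩, ⟨by linarith, by linarith⟩⟩, rfl, h4⟩, hc.2, ?_, ?_, ?_⟩
    · obtain ⟨⟨b1, b2⟩, b3, b4⟩ := h2
      exact ⟨⟨by linarith, by linarith⟩, ⟨by linarith, by linarith⟩⟩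
    · simp only [gmap]
      split_ifs <;> rfl
    · simp only [gmap]
      split_ifs
      · exact ⟨⟨a1, a2⟩, a3, a4⟩
      · refine ⟨⟨?_, ?_⟩, a3, a4⟩
        · change (1 : ℝ) ≤ 4 - (x1 - 8 * ((k : ℕ) : ℝ))
          linarith
        · change 4 - (x1 - 8 * ((k : ℕ) : ℝ)) ≤ 3
          linarith

/-- The cells are path connected. -/
theorem isPathConnected_cell (k : GIdx G) : IsPathConnected (cell G k) := by
  have hL := four_le_L G
  have sh : ∀ (a : ℝ) (B : Set (ℝ × ℝ)), IsPathConnected B →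
      IsPathConnected {x : H788.E | (x.1.1 - a, x.1.2) ∈ B ∧ x.2.1 = 0 ∧ x.2.2 ∈ Fib} := by
    intro a B hB
    have h1 : IsPathConnected (B ×ˢ (({0} : Set (ℝ × ℝ)) ×ˢ Fib)) :=
      hB.prod ((isPathConnected_singleton _).prod isPathConnected_fib)
    have h2 := h1.image (f := fun x : H788.E => (((x.1.1 + a, x.1.2), x.2) : H788.E))
      (by fun_prop)
    convert h2 using 1
    ext ⟨⟨x1, x2⟩, q, v⟩
    constructor
    · rintro ⟨h1, h2, h3⟩
      exact ⟨((x1 - a, x2), q, v), ⟨h1, h2, h3⟩, by simp⟩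
    · rintro ⟨⟨⟨y1, y2⟩, q', v'⟩, ⟨h1, h2, h3⟩, h4⟩
      simp only [Prod.mk.injEq] at h4
      obtain ⟨⟨rfl, rfl⟩, rfl, rfl⟩ := h4
      exact ⟨by simpa using h1, h2, h3⟩
  rcases k with ⟨⟨s, j⟩, hp⟩ | ⟨⟨s, j, b⟩, ht⟩ | k
  · exact sh _ _ isPathConnected_bdFib
  · have := sh 0 _ (isPathConnected_bdSq hL)
    convert this using 1
    ext x
    simp [cell]
  · exact sh _ _ isPathConnected_fib

theorem rel_of_cell (k : GIdx G) {x : H788.E} (hx : x ∈ cell G k) :
    (gd G).rel k ⟨(src G k, x), (cell_mem G k hx).1⟩ ⟨(tgt G k, gmap G k x), (cell_mem G k hx).2⟩ :=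
  ⟨rfl, hx, rfl, rfl⟩

theorem cell_paths (k : GIdx G) (x y x' y' : Pt (gd G).R) (h : (gd G).rel k x y)
    (h' : (gd G).rel k x' y') :
    ∃ (γ : Path x x') (γ' : Path y y'), ∀ t, (gd G).rel k (γ t) (γ' t) := by
  obtain ⟨⟨b, x⟩, hx⟩ := x
  obtain ⟨⟨c, y⟩, hy⟩ := y
  obtain ⟨⟨b', x'⟩, hx'⟩ := x'
  obtain ⟨⟨c', y'⟩, hy'⟩ := y'
  obtain ⟨h1, h2, h3, h4⟩ := h
  obtain ⟨h1', h2', h3', h4'⟩ := h'
  change b = src G k at h1
  change c = tgt G k at h3
  change y = gmap G k x at h4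
  change b' = src G k at h1'
  change c' = tgt G k at h3'
  change y' = gmap G k x' at h4'
  subst h1 h3 h4 h1' h3' h4'
  obtain ⟨δ, hδ⟩ := (isPathConnected_cell G k).joinedIn x h2 x' h2'
  have hg := continuous_gmap G k
  refine ⟨⟨⟨fun t => ⟨(src G k, δ t), (cell_mem G k (hδ t)).1⟩, by fun_prop⟩,
      Subtype.ext (Prod.ext rfl δ.source), Subtype.ext (Prod.ext rfl δ.target)⟩,
    ⟨⟨fun t => ⟨(tgt G k, gmap G k (δ t)), (cell_mem G k (hδ t)).2⟩, ?_⟩, ?_, ?_⟩,
    fun t => rel_of_cell G k (hδ t)⟩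
  · refine Continuous.subtype_mk ?_ _
    exact continuous_const.prodMk (hg.comp δ.continuous)
  · refine Subtype.ext (Prod.ext rfl ?_)
    change gmap G k (δ 0) = gmap G k x
    rw [δ.source]
  · refine Subtype.ext (Prod.ext rfl ?_)
    change gmap G k (δ 1) = gmap G k x'
    rw [δ.target]

theorem isPathConnected_region {b : Block} (h : (G.region b).Nonempty) :
    IsPathConnected (G.region b) := by
  obtain ⟨x, hx⟩ := h
  cases b with
  | base s => exact isPathConnected_base G hx.1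
  | handle s j => exact isPathConnected_handle G hx.1
  | cap t =>
    have e : G.region (.cap t) = Sq G.L ×ˢ (({0} : Set (ℝ × ℝ)) ×ˢ Fib) := by
      ext y
      exact ⟨fun h => h.2, fun h => ⟨hx.1, h⟩⟩
    refine Convex.isPathConnected ?_ ⟨x, hx⟩
    rw [e]
    exact (convex_sq _).prod ((convex_singleton _).prod convex_fib)

theorem bdSq_nonempty : ((0 : ℝ), (0 : ℝ)) ∈ bdSq G.L := by
  have := four_le_L G
  exact ⟨⟨⟨le_rfl, by linarith⟩, ⟨le_rfl, by linarith⟩⟩, Or.inl rfl⟩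

theorem genus_zero_of_succ {s : ℕ} (h : 0 < G.genus (s + 1)) : s < G.genus 0 := by
  change s < G.genera.length
  change 0 < G.genera.getD s 0 at h
  by_contra hs
  rw [List.getD_eq_default _ _ (not_lt.1 hs)] at h
  omega

/-- The blocks of the thickening form a tree. -/
def tree : (gd G).Tree (isTree G) where
  rank := rk
  x₀ := ⟨(.base 0, G.attachE (1, 0) 0),
    G.attachE_mem ⟨(1, 0), by simp [Prod.norm_mk]⟩ Disc.zero⟩
  root := by
    rintro ⟨⟨b, x⟩, hx⟩ h
    change b = .base 0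
    change rk b = 0 at h
    rcases b with (_ | s) | ⟨_ | s, j⟩ | ⟨_ | s, t⟩ <;> simp [rk] at h ⊢
  parent := by
    rintro ⟨⟨b, x⟩, hx⟩ h
    change rk b ≠ 0 at h
    change x ∈ G.region b at hx
    -- the tips
    have htip : ∀ s j c, j < G.genus s → ∃ k a y, (gd G).Adj (isTree G) rk k a y ∧
        y.1.1 = nextBlock (s, j, c) := by
      intro s j c hj
      have hm : (((0, 0), 0, (2, 2)) : H788.E) ∈ cell G (.inr (.inl ⟨(s, j, c), hj⟩)) :=
        ⟨bdSq_nonempty G, rfl, fib_nonempty⟩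
      exact ⟨.inr (.inl ⟨(s, j, c), hj⟩), _, _, ⟨trivial, Or.inr (rel_of_cell G _ hm),
        rk_next s j c⟩, rfl⟩
    cases b with
    | base s =>
      cases s with
      | zero => exact (h rfl).elim
      | succ s =>
        obtain ⟨k, a, y, h1, h2⟩ := htip 0 s false (genus_zero_of_succ G hx.1)
        exact ⟨k, a, y, h1, h2.trans (by simp [nextBlock])⟩
    | handle s j =>
      have hm : (((4 * (j : ℝ) + 1, 1), 0, (2, 2)) : H788.E) ∈ cell G (.inl ⟨(s, j), hx.1⟩) := by
        refine ⟨?_, rfl, fib_nonempty⟩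
        norm_num [bdFib, Fib]
      exact ⟨.inl ⟨(s, j), hx.1⟩, _, _, ⟨trivial, Or.inl (rel_of_cell G _ hm), rk_handle s j⟩, rfl⟩
    | cap t =>
      obtain ⟨s, j, c⟩ := t
      obtain ⟨k, a, y, h1, h2⟩ := htip s j c hx.1.1
      refine ⟨k, a, y, h1, h2.trans ?_⟩
      unfold nextBlock
      exact if_neg hx.1.2
  uniq := by
    intro k k' a b a' b' h h' hb
    exact child_inj G h.1 h'.1 ((adj_child G h).symm.trans (hb.trans (adj_child G h')))
  oriented := by
    intro k x y hk h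
    rcases rank_of_rel G hk h with h | h
    · exact Or.inl h.1
    · exact Or.inr h.1
  cell := cell_paths G
  conn := fun x y h => joined_of_region (gd G) h (isPathConnected_region G ⟨_, x.2⟩)
  piTriv := piTriv_of_blocks (gd G) fun b => piTriv_blk G b
  nonempty := by
    intro k hk
    obtain ⟨x, hx⟩ := (isPathConnected_cell G k).nonempty
    exact ⟨_, _, rel_of_cell G k hx⟩

/-- The gluings which are not in the tree are the plumbings. -/
def ntEquiv : GD.Tree.NT (isTree G) ≃ Fin G.plumbings.length where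
  toFun k := match k with
    | ⟨.inl _, h⟩ => (h trivial).elim
    | ⟨.inr (.inl _), h⟩ => (h trivial).elim
    | ⟨.inr (.inr k), _⟩ => k
  invFun k := ⟨.inr (.inr k), fun h => h⟩
  left_inv := by
    rintro ⟨k | k | k, h⟩
    · exact (h trivial).elim
    · exact (h trivial).elim
    · rfl
  right_inv k := rfl

/-- **The fundamental group of the thickening of a capped grope is free, with one generator for
each double point of the caps.** -/
def fundamentalGroupEquiv (w : G.Thickening) :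
    FundamentalGroup G.Thickening w ≃* FreeGroup (Fin G.plumbings.length) :=
  ((tree G).fundamentalGroupEquiv (slsc_thickening G) w).trans
    (FreeGroup.freeGroupCongr (ntEquiv G))

end Vale.Agent.P215.H580
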