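import Vale.Agent.P215.H580.Cover

/-!
# The fundamental group of a tree of blocks with plumbings

The gluings are divided in two classes: the tree gluings, along which the blocks form a tree, and
the other ones.  If the loops of the blocks are null-homotopic, the fundamental group is free, with
one generator for each gluing which is not in the tree.
-/

noncomputable section

namespace Vale.Agent.P215.H580

open Set Topology unitInterval Vale.Agent.P215.H562

section Cast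

variable {W : Type*} [TopologicalSpace W]

theorem cls_cast_trans {w₀ u v u' v' : W} (c : Cls w₀ u) (p : Path u v) (q : Path u' v')
    (hu : u' = u) (hv : v' = v) (h : ∀ t, p t = q t) :
    (c.trans (.mk p)).cast rfl hv = (c.cast rfl hu).trans (.mk q) := by
  subst hu hv
  have : p = q := Path.ext (funext h)
  subst this
  simp

theorem cls_sigma {w₀ u v : W} (c : Cls w₀ u) (h : v = u) :
    (⟨v, c.cast rfl h⟩ : Σ w, Cls w₀ w) = ⟨u, c⟩ := by
  subst h
  simp

theorem cls_sigma_trans {w₀ u v : W} (a : Cls w₀ w₀) {c : Cls w₀ u} {c' : Cls w₀ v}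
    (h : (⟨u, c⟩ : Σ w, Cls w₀ w) = ⟨v, c'⟩) :
    (⟨u, a.trans c⟩ : Σ w, Cls w₀ w) = ⟨v, a.trans c'⟩ :=
  congrArg (fun s : Σ w, Cls w₀ w => (⟨s.1, a.trans s.2⟩ : Σ w, Cls w₀ w)) h

end Cast

namespace GD

variable {ι E K : Type} [TopologicalSpace ι] [DiscreteTopology ι] [NormedAddCommGroup E]
  [NormedSpace ℝ E] (D : GD ι E K)

/-- The projection of the blocks to the glued space. -/
def pi : C(Pt D.R, Quot D.r) := ⟨Quot.mk D.r, continuous_quot_mk⟩

theorem pi_eq {k : K} {x y : Pt D.R} (h : D.rel k x y) : D.pi x = D.pi y :=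
  Quot.sound ((D.r_iff _ _).2 ⟨k, h⟩)

/-- The gluing `k` of the tree attaches `y` to its parent `x`. -/
def Adj (tr : K → Prop) (rank : ι → ℕ) (k : K) (x y : Pt D.R) : Prop :=
  tr k ∧ (D.rel k x y ∨ D.rel k y x) ∧ rank y.1.1 = rank x.1.1 + 1

/-- The blocks form a tree. -/
structure Tree (tr : K → Prop) where
  /-- the distance to the root -/
  rank : ι → ℕ
  /-- a point of the root -/
  x₀ : Pt D.R
  root : ∀ x : Pt D.R, rank x.1.1 = 0 → x.1.1 = x₀.1.1
  parent : ∀ x : Pt D.R, rank x.1.1 ≠ 0 → ∃ k a b, D.Adj tr rank k a b ∧ b.1.1 = x.1.1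
  uniq : ∀ k k' a b a' b', D.Adj tr rank k a b → D.Adj tr rank k' a' b' → b.1.1 = b'.1.1 → k = k'
  oriented : ∀ k x y, tr k → D.rel k x y →
    rank y.1.1 = rank x.1.1 + 1 ∨ rank x.1.1 = rank y.1.1 + 1
  cell : ∀ k x y x' y', D.rel k x y → D.rel k x' y' →
    ∃ (γ : Path x x') (γ' : Path y y'), ∀ t, D.rel k (γ t) (γ' t)
  conn : ∀ x y : Pt D.R, x.1.1 = y.1.1 → Joined x y
  piTriv : PiTriv D.pi
  nonempty : ∀ k, ¬ tr k → ∃ x y, D.rel k x y

variable {D} {tr : K → Prop} (Γ : D.Tree tr)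

namespace Tree

theorem adj_pi {k : K} {rank : ι → ℕ} {x y : Pt D.R} (h : D.Adj tr rank k x y) :
    D.pi x = D.pi y := by
  rcases h.2.1 with h | h
  · exact D.pi_eq h
  · exact (D.pi_eq h).symm

include Γ in
theorem parallel {k k' : K} {a b a' b' : Pt D.R} (h : D.Adj tr Γ.rank k a b)
    (h' : D.Adj tr Γ.rank k' a' b') (hb : b.1.1 = b'.1.1) :
    ∃ (γ : Path a a') (γ' : Path b b'), ∀ t, D.pi (γ t) = D.pi (γ' t) := by
  obtain rfl := Γ.uniq _ _ _ _ _ _ h h' hb
  obtain ⟨h1, h2, h3⟩ := h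
  obtain ⟨h1', h2', h3'⟩ := h'
  rcases h2 with h2 | h2 <;> rcases h2' with h2' | h2'
  · obtain ⟨γ, γ', h⟩ := Γ.cell k _ _ _ _ h2 h2'
    exact ⟨γ, γ', fun t => D.pi_eq (h t)⟩
  · exfalso
    have e1 : a.1.1 = b'.1.1 := h2.1.trans h2'.1.symm
    rw [← hb] at e1
    rw [e1] at h3
    omega
  · exfalso
    have e1 : b.1.1 = a'.1.1 := h2.1.trans h2'.1.symm
    rw [← e1, ← hb] at h3'
    omega
  · obtain ⟨γ, γ', h⟩ := Γ.cell k _ _ _ _ h2 h2'
    exact ⟨γ', γ, fun t => (D.pi_eq (h t)).symm⟩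

/-- The class of the paths of a block from `x` to `y`. -/
def pc (x y : Pt D.R) (h : x.1.1 = y.1.1) : Cls (D.pi x) (D.pi y) :=
  .mk ((Γ.conn x y h).somePath.map D.pi.continuous)

theorem pc_eq {x y : Pt D.R} (h : x.1.1 = y.1.1) (γ : Path x y) :
    Γ.pc x y h = .mk (γ.map D.pi.continuous) :=
  Path.Homotopic.Quotient.eq.2 (Γ.piTriv _ _ _ _)

theorem pc_trans {x y z : Pt D.R} (h : x.1.1 = y.1.1) (γ : Path y z) (h' : x.1.1 = z.1.1) :
    (Γ.pc x y h).trans (.mk (γ.map D.pi.continuous)) = Γ.pc x z h' := by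
  rw [Γ.pc_eq h' ((Γ.conn x y h).somePath.trans γ), Path.map_trans,
    Path.Homotopic.Quotient.mk_trans]
  rfl

theorem path_block {x y : Pt D.R} (γ : Path x y) : x.1.1 = y.1.1 := by
  have h : Continuous fun t => (γ t).1.1 :=
    continuous_fst.comp (continuous_subtype_val.comp γ.continuous)
  have := PreconnectedSpace.constant (inferInstance : PreconnectedSpace I) h (x := 0) (y := 1)
  simpa using this

/-- The potential on the blocks of rank `n`. -/
def Tn : (n : ℕ) → (x : Pt D.R) → Γ.rank x.1.1 = n → Cls (D.pi Γ.x₀) (D.pi x)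
  | 0, x, h => Γ.pc Γ.x₀ x (Γ.root x h).symm
  | n + 1, x, h =>
    have hp := Γ.parent x (by omega)
    have ha : Γ.rank hp.choose_spec.choose.1.1 = n := by
      have h1 := hp.choose_spec.choose_spec.choose_spec
      have h2 := h1.1.2.2
      rw [h1.2, h] at h2
      omega
    ((Tn n hp.choose_spec.choose ha).cast rfl
      (adj_pi hp.choose_spec.choose_spec.choose_spec.1).symm).trans
      (Γ.pc hp.choose_spec.choose_spec.choose x hp.choose_spec.choose_spec.choose_spec.2)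

theorem Tn_succ {n : ℕ} {x : Pt D.R} (h : Γ.rank x.1.1 = n + 1) :
    ∃ (k : K) (a b : Pt D.R) (hab : D.Adj tr Γ.rank k a b) (hb : b.1.1 = x.1.1)
      (ha : Γ.rank a.1.1 = n),
      Γ.Tn (n + 1) x h = ((Γ.Tn n a ha).cast rfl (adj_pi hab).symm).trans (Γ.pc b x hb) := by
  have hp := Γ.parent x (by omega)
  exact ⟨hp.choose, hp.choose_spec.choose, hp.choose_spec.choose_spec.choose,
    hp.choose_spec.choose_spec.choose_spec.1, hp.choose_spec.choose_spec.choose_spec.2, _, rfl⟩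

/-- The potential. -/
def T (x : Pt D.R) : Cls (D.pi Γ.x₀) (D.pi x) := Γ.Tn _ x rfl

theorem Tn_eq {n : ℕ} {x : Pt D.R} (h : Γ.rank x.1.1 = n) : Γ.Tn n x h = Γ.T x := by
  subst h; rfl

theorem T_star_path (n : ℕ) : (∀ (x y : Pt D.R) (γ : Path x y), Γ.rank x.1.1 = n →
      Γ.T y = (Γ.T x).trans (.mk (γ.map D.pi.continuous))) ∧
    (∀ (k : K) (a b x : Pt D.R) (hab : D.Adj tr Γ.rank k a b) (hb : b.1.1 = x.1.1),
      Γ.rank a.1.1 = n →
      Γ.T x = ((Γ.T a).cast rfl (adj_pi hab).symm).trans (Γ.pc b x hb)) := by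
  -- the second statement follows from the first one
  have second : ∀ n, (∀ (x y : Pt D.R) (γ : Path x y), Γ.rank x.1.1 = n →
      Γ.T y = (Γ.T x).trans (.mk (γ.map D.pi.continuous))) →
      (∀ (k : K) (a b x : Pt D.R) (hab : D.Adj tr Γ.rank k a b) (hb : b.1.1 = x.1.1),
      Γ.rank a.1.1 = n →
      Γ.T x = ((Γ.T a).cast rfl (adj_pi hab).symm).trans (Γ.pc b x hb)) := by
    intro n ih k a b x hab hb ha
    have hx : Γ.rank x.1.1 = n + 1 := by rw [← hb, hab.2.2, ha]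
    obtain ⟨k₀, a₀, b₀, hab₀, hb₀, ha₀, h⟩ := Γ.Tn_succ hx
    rw [Γ.Tn_eq, Γ.Tn_eq] at h
    obtain ⟨γ, γ', hγ⟩ := Γ.parallel hab₀ hab (hb₀.trans hb.symm)
    have e1 := ih a₀ a γ ha₀
    rw [e1, cls_cast_trans (Γ.T a₀) (γ.map D.pi.continuous) (γ'.map D.pi.continuous)
      (adj_pi hab₀).symm (adj_pi hab).symm hγ, h, Path.Homotopic.Quotient.trans_assoc]
    congr 1
    rw [Γ.pc_eq hb (Γ.conn b x hb).somePath, ← Path.Homotopic.Quotient.mk_trans, ← Path.map_trans,
      ← Γ.pc_eq]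
  induction n with
  | zero =>
    have h1 : ∀ (x y : Pt D.R) (γ : Path x y), Γ.rank x.1.1 = 0 →
        Γ.T y = (Γ.T x).trans (.mk (γ.map D.pi.continuous)) := by
      intro x y γ hx
      have hxy := path_block γ
      have hy : Γ.rank y.1.1 = 0 := by rw [← hxy, hx]
      rw [← Γ.Tn_eq hx, ← Γ.Tn_eq hy]
      exact (Γ.pc_trans _ γ _).symm
    exact ⟨h1, second 0 h1⟩
  | succ n ih =>
    have h1 : ∀ (x y : Pt D.R) (γ : Path x y), Γ.rank x.1.1 = n + 1 →
        Γ.T y = (Γ.T x).trans (.mk (γ.map D.pi.continuous)) := by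
      intro x y γ hx
      have hxy := path_block γ
      obtain ⟨k, a, b, hab, hb, ha, h⟩ := Γ.Tn_succ hx
      rw [Γ.Tn_eq, Γ.Tn_eq] at h
      rw [h, Path.Homotopic.Quotient.trans_assoc, Γ.pc_trans _ γ (hb.trans hxy)]
      exact ih.2 k a b y hab (hb.trans hxy) ha
    exact ⟨h1, second (n + 1) h1⟩

/-- The potential is compatible with the paths of the blocks. -/
theorem T_path {x y : Pt D.R} (γ : Path x y) :
    Γ.T y = (Γ.T x).trans (.mk (γ.map D.pi.continuous)) :=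
  (Γ.T_star_path _).1 x y γ rfl

theorem pc_self (x : Pt D.R) : Γ.pc x x rfl = .refl _ := by
  rw [Γ.pc_eq rfl (Path.refl x)]
  rfl

theorem T_adj {k : K} {x y : Pt D.R} (h : D.Adj tr Γ.rank k x y) :
    (⟨D.pi x, Γ.T x⟩ : Σ w, Cls (D.pi Γ.x₀) w) = ⟨D.pi y, Γ.T y⟩ := by
  rw [(Γ.T_star_path _).2 k x y y h rfl rfl, pc_self, Path.Homotopic.Quotient.trans_refl,
    cls_sigma]

theorem T_tree {k : K} (hk : tr k) {x y : Pt D.R} (h : D.rel k x y) :
    (⟨D.pi x, Γ.T x⟩ : Σ w, Cls (D.pi Γ.x₀) w) = ⟨D.pi y, Γ.T y⟩ := by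
  rcases Γ.oriented k x y hk h with h' | h'
  · exact Γ.T_adj ⟨hk, Or.inl h, h'⟩
  · exact (Γ.T_adj ⟨hk, Or.inr h, h'⟩).symm

/-- The loop through the gluing number `k`. -/
def loop {k : K} {x y : Pt D.R} (h : D.rel k x y) : Cls (D.pi Γ.x₀) (D.pi Γ.x₀) :=
  (Γ.T x).trans ((Γ.T y).cast rfl (D.pi_eq h)).symm

theorem loop_eq {k : K} {x y x' y' : Pt D.R} (h : D.rel k x y) (h' : D.rel k x' y') :
    Γ.loop h = Γ.loop h' := by
  obtain ⟨γ, γ', hγ⟩ := Γ.cell k _ _ _ _ h h'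
  unfold loop
  rw [Γ.T_path γ, Γ.T_path γ', cls_cast_trans (Γ.T y) (γ'.map D.pi.continuous)
    (γ.map D.pi.continuous) (D.pi_eq h) (D.pi_eq h') (fun t => (D.pi_eq (hγ t)).symm)]
  have key : ∀ {W : Type} [TopologicalSpace W] {a b c : W} (p q : Cls a b) (r : Cls b c),
      (p.trans r).trans (q.trans r).symm = p.trans q.symm := by
    intro W _ a b c p q r
    have h1 : (q.trans r).symm = r.symm.trans q.symm := by
      rw [← cls_cancel_left (q.trans r), Path.Homotopic.Quotient.trans_symm,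
        Path.Homotopic.Quotient.trans_assoc, ← Path.Homotopic.Quotient.trans_assoc r,
        Path.Homotopic.Quotient.trans_symm, Path.Homotopic.Quotient.refl_trans,
        Path.Homotopic.Quotient.trans_symm]
    rw [h1, Path.Homotopic.Quotient.trans_assoc, ← Path.Homotopic.Quotient.trans_assoc r,
      Path.Homotopic.Quotient.trans_symm, Path.Homotopic.Quotient.refl_trans]
  exact (key _ _ _).symm

theorem T_loop {k : K} {x y : Pt D.R} (h : D.rel k x y) :
    (⟨D.pi x, Γ.T x⟩ : Σ w, Cls (D.pi Γ.x₀) w) = ⟨D.pi y, (Γ.loop h).trans (Γ.T y)⟩ := by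
  have e : Γ.T x = (Γ.loop h).trans ((Γ.T y).cast rfl (D.pi_eq h)) := by
    unfold loop
    rw [Path.Homotopic.Quotient.trans_assoc, Path.Homotopic.Quotient.symm_trans,
      Path.Homotopic.Quotient.trans_refl]
  rw [e]
  exact cls_sigma_trans _ (cls_sigma _ _)

end Tree

end GD

end Vale.Agent.P215.H580
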