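import Mathlib
import Vale.Agent.P215.H788.Defs
import Vale.Agent.P215.H580.Perms

/-!
# Uniform goodness of a family of groups without common law is goodness of the free group
-/

namespace Vale.Agent.P215.H580

open Vale.Agent.P215.H788

/-- The groups `Γ i` are **uniformly good over `F₂`**: for every capped grope and every homomorphism
`φ` from the fundamental group of its thickening to the free group `F₂` of rank two there are
*finitely many* framed immersed discs in the thickening, with the framed boundary of the grope, such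
that for every `i` and every homomorphism `ψ` from `F₂` to `Γ i` (given by the images `x`, `y` of
the two generators) all double point loops of one of these discs are mapped to the identity by
`ψ ∘ φ`. -/
def UniformlyGoodOverFree {ι : Type*} (Γ : ι → Type) [∀ i, Group (Γ i)] : Prop :=
  ∀ (G : CappedGrope)
    (φ : FundamentalGroup G.Thickening G.basePt →* FreeGroup (Fin 2)),
    ∃ L : List (FramedDisc G.Thickening G.attach),
      ∀ (i : ι) (x y : Γ i), ∃ D ∈ L, D.Kills ((FreeGroup.lift ![x, y]).comp φ)

theorem Kills.comp {W : Type} [TopologicalSpace W] {e : Circ × Disc → W} {D : FramedDisc W e}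
    {x₀ : W} {Γ Γ' : Type} [Group Γ] [Group Γ'] {φ : FundamentalGroup W x₀ →* Γ}
    (h : D.Kills φ) (ψ : Γ →* Γ') : D.Kills (ψ.comp φ) := by
  intro k c l
  rw [MonoidHom.comp_apply, h k c l, map_one]

/-- A disc which does not kill `φ` has a witness: a nontrivial element of the target such that the
disc kills `ψ ∘ φ` only if `ψ` kills the witness. -/
theorem exists_witness {W : Type} [TopologicalSpace W] {e : Circ × Disc → W} {D : FramedDisc W e}
    {x₀ : W} {Γ : Type} [Group Γ] {φ : FundamentalGroup W x₀ →* Γ} (h : ¬ D.Kills φ) :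
    ∃ w : Γ, w ≠ 1 ∧ ∀ (Γ' : Type) [Group Γ'] (ψ : Γ →* Γ'), D.Kills (ψ.comp φ) → ψ w = 1 := by
  unfold FramedDisc.Kills at h
  push Not at h
  obtain ⟨k, c, l, h⟩ := h
  exact ⟨_, h, fun Γ' _ ψ hψ => hψ k c l⟩

theorem good_iff_uniform {ι : Type*} (Γ : ι → Type) [∀ i, Group (Γ i)] (hΓ : NoCommonLaw Γ) :
    Good (FreeGroup (Fin 2)) ↔ UniformlyGoodOverFree Γ := by
  classical
  constructor
  · intro h G φ
    obtain ⟨D, hD⟩ := h G φ
    exact ⟨[D], fun i x y => ⟨D, by simp, Kills.comp hD _⟩⟩
  · intro h G φ
    by_contra hno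
    push Not at hno
    obtain ⟨L, hL⟩ := h G φ
    choose w hw1 hw2 using fun D => exists_witness (hno D)
    obtain ⟨i, x, y, hs⟩ := hΓ.separates (L.map w).toFinset (by
      intro z hz
      rw [List.mem_toFinset, List.mem_map] at hz
      obtain ⟨D, _, rfl⟩ := hz
      exact hw1 D)
    obtain ⟨D, hDL, hD⟩ := hL i x y
    refine hs (w D) ?_ (hw2 D _ _ hD)
    rw [List.mem_toFinset]
    exact List.mem_map_of_mem hDL

/-- If `F₂` is not good, then there are a capped grope and a homomorphism `φ` to `F₂` such that for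
every finite list of discs there is one nontrivial law which holds in all groups `Γ` which are
served by the list. -/
theorem exists_law (h : ¬ Good (FreeGroup (Fin 2))) :
    ∃ (G : CappedGrope) (φ : FundamentalGroup G.Thickening G.basePt →* FreeGroup (Fin 2)),
      ∀ L : List (FramedDisc G.Thickening G.attach),
        ∃ w : FreeGroup (Fin 2), w ≠ 1 ∧ ∀ (Γ : Type) [Group Γ],
          (∀ x y : Γ, ∃ D ∈ L, D.Kills ((FreeGroup.lift ![x, y]).comp φ)) →
            ∀ x y : Γ, FreeGroup.lift ![x, y] w = 1 := by
  classical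
  unfold Good at h
  push Not at h
  obtain ⟨G, φ, hno⟩ := h
  refine ⟨G, φ, fun L => ?_⟩
  choose w hw1 hw2 using fun D => exists_witness (hno D)
  obtain ⟨z, hz, hzs⟩ := exists_mem_normalClosure (L.map w).toFinset (by
    intro z hz
    rw [List.mem_toFinset, List.mem_map] at hz
    obtain ⟨D, _, rfl⟩ := hz
    exact hw1 D)
  refine ⟨z, hz, fun Γ _ hΓ x y => ?_⟩
  obtain ⟨D, hDL, hD⟩ := hΓ x y
  have h1 : FreeGroup.lift ![x, y] (w D) = 1 := hw2 D _ _ hD
  have h2 : Subgroup.normalClosure {w D} ≤ (FreeGroup.lift ![x, y]).ker :=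
    Subgroup.normalClosure_le_normal (by simpa [MonoidHom.mem_ker] using h1)
  refine h2 (hzs (w D) ?_)
  rw [List.mem_toFinset]
  exact List.mem_map_of_mem hDL

end Vale.Agent.P215.H580
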