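import Vale.Agent.P215.H580.Uniform
import Vale.Agent.P215.H580.Embed
import Vale.Agent.P215.H580.ThickeningFree
import Vale.Agent.P215.H579.Interface

/-!
# Goodness of the free group as uniform goodness
-/

noncomputable section

namespace Vale.Agent.P215.H580

open Vale.Agent.P215.H788 Vale.Agent.P215.H579

/-- The fundamental group of the thickening of a capped grope. -/
abbrev Pi1 (G : CappedGrope) : Type := FundamentalGroup G.Thickening G.basePt

/-- The groups `Γ i` are **uniformly good**: for every capped grope there are *finitely many* framed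
immersed discs in the thickening, with the framed boundary of the grope, such that for every `i` and
every homomorphism `φ` from the fundamental group of the thickening to `Γ i` all double point loops
of one of these discs are mapped to the identity by `φ`. -/
def UniformlyGood {ι : Type} (Γ : ι → Type) [∀ i, Group (Γ i)] : Prop :=
  ∀ G : CappedGrope, ∃ L : List (FramedDisc G.Thickening G.attach),
    ∀ (i : ι) (φ : FundamentalGroup G.Thickening G.basePt →* Γ i), ∃ D ∈ L, D.Kills φ

theorem exists_injective (G : CappedGrope) :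
    ∃ f : Pi1 G →* FreeGroup (Fin 2), Function.Injective f := by
  obtain ⟨f, hf⟩ := exists_embedding G.plumbings.length
  exact ⟨f.comp (fundamentalGroupEquiv G G.basePt).toMonoidHom,
    hf.comp (fundamentalGroupEquiv G G.basePt).injective⟩

theorem kills_of_id {G : CappedGrope} {D : FramedDisc G.Thickening G.attach}
    (h : D.Kills (MonoidHom.id (Pi1 G))) {Γ : Type} [Group Γ] (φ : Pi1 G →* Γ) : D.Kills φ :=
  Kills.comp h φ

theorem good_free_iff : Good (FreeGroup (Fin 2)) ↔ ∀ G : CappedGrope,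
    ∃ D : FramedDisc G.Thickening G.attach, D.Kills (MonoidHom.id (Pi1 G)) := by
  constructor
  · intro h G
    obtain ⟨f, hf⟩ := exists_injective G
    obtain ⟨D, hD⟩ := h G f
    exact ⟨D, fun k c l => hf ((hD k c l).trans (map_one f).symm)⟩
  · intro h G φ
    obtain ⟨D, hD⟩ := h G
    exact ⟨D, kills_of_id hD φ⟩

theorem good_free_iff_all :
    Good (FreeGroup (Fin 2)) ↔ ∀ (Γ : Type) [Group Γ], Good Γ := by
  constructor
  · intro h Γ _ G φ
    obtain ⟨D, hD⟩ := good_free_iff.1 h G
    exact ⟨D, kills_of_id hD φ⟩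
  · intro h
    exact h _

/-- If no disc in the thickening of `G` has null-homotopic double point loops, a finite list of
discs serves only groups with a common law. -/
theorem exists_law_list {G : CappedGrope}
    (hno : ∀ D : FramedDisc G.Thickening G.attach, ¬ D.Kills (MonoidHom.id (Pi1 G)))
    (L : List (FramedDisc G.Thickening G.attach)) :
    ∃ w : FreeGroup (Fin 2), w ≠ 1 ∧ ∀ (Γ : Type) [Group Γ],
      (∀ φ : Pi1 G →* Γ, ∃ D ∈ L, D.Kills φ) → ∀ x y : Γ, FreeGroup.lift ![x, y] w = 1 := by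
  classical
  obtain ⟨f, hf⟩ := exists_injective G
  choose w hw1 hw2 using fun D => exists_witness (hno D)
  obtain ⟨z, hz, hzs⟩ := exists_mem_normalClosure (L.map fun D => f (w D)).toFinset (by
    intro z hz
    rw [List.mem_toFinset, List.mem_map] at hz
    obtain ⟨D, _, rfl⟩ := hz
    exact fun h => hw1 D (hf (h.trans (map_one f).symm)))
  refine ⟨z, hz, fun Γ _ hΓ x y => ?_⟩
  obtain ⟨D, hDL, hD⟩ := hΓ ((FreeGroup.lift ![x, y]).comp f)
  have h1 : FreeGroup.lift ![x, y] (f (w D)) = 1 :=
    hw2 D Γ ((FreeGroup.lift ![x, y]).comp f) (by rwa [MonoidHom.comp_id])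
  have h2 : Subgroup.normalClosure {f (w D)} ≤ (FreeGroup.lift ![x, y]).ker :=
    Subgroup.normalClosure_le_normal (by simpa [MonoidHom.mem_ker] using h1)
  refine h2 (hzs (f (w D)) ?_)
  rw [List.mem_toFinset]
  exact List.mem_map_of_mem (f := fun D => f (w D)) hDL

theorem exists_law_all (h : ¬ Good (FreeGroup (Fin 2))) :
    ∃ G : CappedGrope, ∀ L : List (FramedDisc G.Thickening G.attach),
      ∃ w : FreeGroup (Fin 2), w ≠ 1 ∧ ∀ (Γ : Type) [Group Γ],
        (∀ φ : Pi1 G →* Γ, ∃ D ∈ L, D.Kills φ) → ∀ x y : Γ, FreeGroup.lift ![x, y] w = 1 := by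
  rw [good_free_iff] at h
  push Not at h
  obtain ⟨G, hG⟩ := h
  exact ⟨G, exists_law_list hG⟩

theorem good_iff_uniformlyGood {ι : Type} (Γ : ι → Type) [∀ i, Group (Γ i)]
    (hΓ : NoCommonLaw Γ) : Good (FreeGroup (Fin 2)) ↔ UniformlyGood Γ := by
  constructor
  · intro h G
    obtain ⟨D, hD⟩ := good_free_iff.1 h G
    exact ⟨[D], fun i φ => ⟨D, by simp, kills_of_id hD φ⟩⟩
  · intro h
    by_contra hno
    obtain ⟨G, hG⟩ := exists_law_all hno
    obtain ⟨L, hL⟩ := h G
    obtain ⟨w, hw, hlaw⟩ := hG L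
    obtain ⟨i, x, y, hxy⟩ := hΓ w hw
    exact hxy (hlaw (Γ i) (hL i) x y)

/-! ### Ultrapowers -/

section Ultra

open Filter

variable {Γ : Type} [Group Γ]

/-- A sequence of homomorphisms gives a homomorphism to the ultrapower. -/
def germHom (U : Ultrafilter ℕ) {P : Type} [Group P] (φ : ℕ → P →* Γ) :
    P →* Germ (U : Filter ℕ) Γ :=
  (Germ.coeMulHom (U : Filter ℕ)).comp (MonoidHom.mk' (fun p m => φ m p) fun p q => by
    ext m; exact map_mul (φ m) p q)

theorem germHom_eq_one (U : Ultrafilter ℕ) {P : Type} [Group P] (φ : ℕ → P →* Γ) (p : P) :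
    germHom U φ p = 1 ↔ ∀ᶠ m in (U : Filter ℕ), φ m p = 1 := by
  change ((fun m => φ m p : ℕ → Γ) : Germ (U : Filter ℕ) Γ) = ((1 : ℕ → Γ) : Germ _ Γ) ↔ _
  rw [Germ.coe_eq]
  rfl

/-- Homomorphisms from a free group to the ultrapower lift. -/
theorem exists_germHom (U : Ultrafilter ℕ) {P : Type} [Group P] {n : ℕ}
    (e : P ≃* FreeGroup (Fin n)) (ψ : P →* Germ (U : Filter ℕ) Γ) :
    ∃ φ : ℕ → P →* Γ, ψ = germHom U φ := by
  have h : ∀ i : Fin n, ∃ g : ℕ → Γ, ψ (e.symm (FreeGroup.of i)) = (g : Germ (U : Filter ℕ) Γ) := by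
    intro i
    obtain ⟨g, hg⟩ := Quotient.exists_rep (ψ (e.symm (FreeGroup.of i)))
    exact ⟨g, hg.symm⟩
  choose g hg using h
  refine ⟨fun m => (FreeGroup.lift fun i => g i m).comp e.toMonoidHom, ?_⟩
  have key : ψ.comp e.symm.toMonoidHom =
      (germHom U fun m => (FreeGroup.lift fun i => g i m).comp e.toMonoidHom).comp
        e.symm.toMonoidHom := by
    ext i
    change ψ (e.symm (FreeGroup.of i)) = _
    rw [hg]
    change (g i : Germ (U : Filter ℕ) Γ) =
      ((fun m => FreeGroup.lift (fun i => g i m) (e (e.symm (FreeGroup.of i))) : ℕ → Γ) :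
        Germ (U : Filter ℕ) Γ)
    congr 1
    ext m
    simp
  ext p
  have := congrArg (fun f : FreeGroup (Fin n) →* Germ (U : Filter ℕ) Γ => f (e p)) key
  simpa using this

/-- **The ultrapower of `Γ` is good if and only if `Γ` is uniformly good.** -/
theorem good_germ_iff (U : Ultrafilter ℕ) (hU : (U : Filter ℕ) ≤ cofinite) :
    Good (Germ (U : Filter ℕ) Γ) ↔ UniformlyGood fun _ : Unit => Γ := by
  classical
  constructor
  · intro h G
    by_contra hno
    push Not at hno
    choose R hRfin hR using fun D : FramedDisc G.Thickening G.attach =>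
      exists_finset_kills D G.basePt
    have hcount : Countable (Pi1 G) :=
      (fundamentalGroupEquiv G G.basePt).toEquiv.injective.countable
    obtain ⟨D₀, -⟩ := h G 1
    -- countably many discs suffice
    have hex : ∃ d : ℕ → FramedDisc G.Thickening G.attach, ∀ D, ∃ k, R (d k) = R D := by
      have hc : (Set.range R).Countable := by
        refine (Set.countable_setOf_finite_subset
          (Set.to_countable (Set.univ : Set (Pi1 G)))).mono ?_
        rintro s ⟨D, rfl⟩
        exact ⟨hRfin D, Set.subset_univ _⟩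
      have : Nonempty (Set.range R) := ⟨⟨R D₀, D₀, rfl⟩⟩
      have := hc.to_subtype
      obtain ⟨f, hf⟩ := exists_surjective_nat (Set.range R)
      choose d hd using fun k => (f k).2
      refine ⟨d, fun D => ?_⟩
      obtain ⟨k, hk⟩ := hf ⟨R D, D, rfl⟩
      exact ⟨k, by rw [hd, hk]⟩
    obtain ⟨d, hd⟩ := hex
    -- homomorphisms which are not served by the first `m` discs
    choose i φ hφ using fun m : ℕ => hno ((List.range (m + 1)).map d)
    obtain ⟨D, hD⟩ := h G (germHom U φ)
    obtain ⟨k, hk⟩ := hd D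
    have h1 : ∀ᶠ m in (U : Filter ℕ), ∀ w ∈ R D, φ m w = 1 := by
      rw [(hRfin D).eventually_all]
      intro w hw
      exact (germHom_eq_one U φ w).1 ((hR D _ _).1 hD w hw)
    have h2 : ∀ᶠ m in (U : Filter ℕ), k ≤ m := by
      refine hU ?_
      rw [Nat.cofinite_eq_atTop]
      exact Filter.eventually_ge_atTop k
    obtain ⟨m, h3, h4⟩ := (h1.and h2).exists
    refine hφ m (d k) (List.mem_map_of_mem (List.mem_range.2 (by omega))) ?_
    rw [hR, hk]
    exact h3
  · intro h G ψ
    obtain ⟨φ, rfl⟩ := exists_germHom U (fundamentalGroupEquiv G G.basePt) ψ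
    obtain ⟨L, hL⟩ := h G
    have h1 : ∀ᶠ m in (U : Filter ℕ), ∃ D ∈ L, D.Kills (φ m) :=
      Filter.Eventually.of_forall fun m => hL () (φ m)
    have h2 : ∃ D ∈ L, ∀ᶠ m in (U : Filter ℕ), D.Kills (φ m) := by
      by_contra hno
      push Not at hno
      have h3 : ∀ D ∈ {D | D ∈ L}, ∀ᶠ m in (U : Filter ℕ), ¬ D.Kills (φ m) := fun D hD =>
        hno D hD
      have h4 := ((List.finite_toSet L).eventually_all).2 h3
      obtain ⟨m, ⟨D, hDL, hD⟩, h5⟩ := (h1.and h4).exists
      exact h5 D hDL hD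
    obtain ⟨D, -, hD⟩ := h2
    refine ⟨D, fun k c l => (germHom_eq_one U φ _).2 ?_⟩
    filter_upwards [hD] with m hm using hm k c l

end Ultra

end Vale.Agent.P215.H580
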