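import Vale.Agent.P215.H580.LocGlob
import Vale.Agent.P215.H562.Poly

/-!
# Maps which kill the fundamental groupoid: products and unions
-/

noncomputable section

namespace Vale.Agent.P215.H580

open Set Topology unitInterval Vale.Agent.P215.H562

variable {X Y W : Type*} [TopologicalSpace X] [TopologicalSpace Y] [TopologicalSpace W]

theorem cls_cancel_left {a b c : W} {p q : Cls b c} (r : Cls a b) :
    r.trans p = r.trans q ↔ p = q := by
  constructor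
  · intro h
    have := congrArg (fun x => r.symm.trans x) h
    simpa [← Path.Homotopic.Quotient.trans_assoc] using this
  · rintro rfl; rfl

/-- A contractible factor can be ignored. -/
theorem PiTriv.prod [ContractibleSpace Y] (f : C(X × Y, W)) (y₀ : Y)
    (h : PiTriv (f.comp (ContinuousMap.prodMk (.id X) (.const X y₀)))) : PiTriv f := by
  obtain ⟨y₁, ⟨H⟩⟩ := id_nullhomotopic Y
  obtain ⟨p⟩ := PathConnectedSpace.joined y₁ y₀
  let K : (ContinuousMap.id Y).Homotopy (.const Y y₀) :=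
    H.trans ⟨⟨fun q => p q.1, by fun_prop⟩, fun y => by simp, fun y => by simp⟩
  have h' := h.comp (Y := X × Y) ⟨Prod.fst, continuous_fst⟩
  refine h'.of_homotopy ⟨⟨fun q => f (q.2.1, K (q.1, q.2.2)), ?_⟩, fun q => ?_, fun q => ?_⟩
  · fun_prop
  · simp
  · simp

/-- `f` kills the paths of `A`. -/
def PiTrivOn (f : C(X, W)) (A : Set X) : Prop :=
  ∀ (x y : X) (γ₁ γ₂ : Path x y), range γ₁ ⊆ A → range γ₂ ⊆ A →
    (γ₁.map f.continuous).Homotopic (γ₂.map f.continuous)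

/-- The path `γ` of `A` as a path of the subspace `A`. -/
def codPath {A : Set X} {a b : X} (γ : Path a b) (h : range γ ⊆ A) :
    Path (⟨a, h ⟨0, γ.source⟩⟩ : A) ⟨b, h ⟨1, γ.target⟩⟩ :=
  ⟨⟨fun t => ⟨γ t, h ⟨t, rfl⟩⟩, γ.continuous.subtype_mk _⟩,
      Subtype.ext γ.source, Subtype.ext γ.target⟩

theorem PiTriv.on {f : C(X, W)} {A : Set X}
    (h : PiTriv (f.comp (⟨Subtype.val, continuous_subtype_val⟩ : C(A, X)))) : PiTrivOn f A := by
  intro a b γ₁ γ₂ h₁ h₂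
  exact h _ _ (codPath γ₁ h₁) (codPath γ₂ h₂)

/-- `A` is locally path connected, in a weak form. -/
def Lpc (A : Set X) : Prop :=
  ∀ x₀ ∈ A, ∀ V ∈ 𝓝 x₀, ∀ᶠ x in 𝓝 x₀, x ∈ A → JoinedIn (V ∩ A) x₀ x

theorem piTriv_union (hW : Slsc W) (f : C(X, W)) {A₁ A₂ : Set X} (hA : A₁ ∪ A₂ = univ)
    (hc₁ : IsClosed A₁) (hc₂ : IsClosed A₂) (hl₁ : Lpc A₁) (hl₂ : Lpc A₂)
    (hp₁ : IsPathConnected A₁) (hp₂ : IsPathConnected A₂) (hp : IsPathConnected (A₁ ∩ A₂))
    (h₁ : PiTrivOn f A₁) (h₂ : PiTrivOn f A₂) : PiTriv f := by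
  obtain ⟨a, ha, haj⟩ := hp
  -- the potential
  have hex : ∀ x, ∃ c : Cls (f a) (f x),
      (∀ γ : Path a x, range γ ⊆ A₁ → c = .mk (γ.map f.continuous)) ∧
      (∀ γ : Path a x, range γ ⊆ A₂ → c = .mk (γ.map f.continuous)) := by
    intro x
    by_cases hx1 : x ∈ A₁
    · by_cases hx2 : x ∈ A₂
      · obtain ⟨γ, hγ⟩ := haj ⟨hx1, hx2⟩
        have hr1 : range γ ⊆ A₁ := by rintro _ ⟨t, rfl⟩; exact (hγ t).1
        have hr2 : range γ ⊆ A₂ := by rintro _ ⟨t, rfl⟩; exact (hγ t).2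
        exact ⟨.mk (γ.map f.continuous),
          fun δ hδ => Path.Homotopic.Quotient.eq.2 (h₁ _ _ _ _ hr1 hδ),
          fun δ hδ => Path.Homotopic.Quotient.eq.2 (h₂ _ _ _ _ hr2 hδ)⟩
      · obtain ⟨γ, hγ⟩ := hp₁.joinedIn a ha.1 x hx1
        have hr1 : range γ ⊆ A₁ := by rintro _ ⟨t, rfl⟩; exact hγ t
        exact ⟨.mk (γ.map f.continuous),
          fun δ hδ => Path.Homotopic.Quotient.eq.2 (h₁ _ _ _ _ hr1 hδ),
          fun δ hδ => absurd (hδ ⟨1, δ.target⟩) hx2⟩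
    · have hx2 : x ∈ A₂ := by
        have : x ∈ A₁ ∪ A₂ := by rw [hA]; trivial
        exact this.resolve_left hx1
      obtain ⟨γ, hγ⟩ := hp₂.joinedIn a ha.2 x hx2
      have hr2 : range γ ⊆ A₂ := by rintro _ ⟨t, rfl⟩; exact hγ t
      exact ⟨.mk (γ.map f.continuous),
        fun δ hδ => absurd (hδ ⟨1, δ.target⟩) hx1,
        fun δ hδ => Path.Homotopic.Quotient.eq.2 (h₂ _ _ _ _ hr2 hδ)⟩
  choose T hT1 hT2 using hex
  have key : ∀ A : Set X, IsPathConnected A → a ∈ A →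
      (∀ x, ∀ γ : Path a x, range γ ⊆ A → T x = .mk (γ.map f.continuous)) →
      ∀ x₀ ∈ A, ∀ x (δ : Path x₀ x), range δ ⊆ A →
        T x = (T x₀).trans (.mk (δ.map f.continuous)) := by
    intro A hA haA hT x₀ hx₀ x δ hδ
    obtain ⟨γ, hγ⟩ := hA.joinedIn a haA x₀ hx₀
    have hr : range γ ⊆ A := by rintro _ ⟨t, rfl⟩; exact hγ t
    have hr' : range (γ.trans δ) ⊆ A := by
      rw [Path.trans_range]; exact union_subset hr hδ
    rw [hT x _ hr', hT x₀ γ hr, Path.map_trans, Path.Homotopic.Quotient.mk_trans]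
  have hloc : ∀ x₀, ∀ N ∈ 𝓝 (f x₀), ∀ᶠ x in 𝓝 x₀, ∃ δ : Path (f x₀) (f x),
      range δ ⊆ N ∧ T x = (T x₀).trans (.mk δ) := by
    intro x₀ N hN
    have hV : f ⁻¹' N ∈ 𝓝 x₀ := f.continuous.continuousAt.preimage_mem_nhds hN
    have e : ∀ A : Set X, IsClosed A → Lpc A → ∀ᶠ x in 𝓝 x₀, x ∈ A →
        x₀ ∈ A ∧ JoinedIn (f ⁻¹' N ∩ A) x₀ x := by
      intro A hc hl
      by_cases hx : x₀ ∈ A
      · filter_upwards [hl x₀ hx _ hV] with x h hxA using ⟨hx, h hxA⟩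
      · filter_upwards [hc.isOpen_compl.mem_nhds hx] with x h hxA using absurd hxA h
    filter_upwards [e A₁ hc₁ hl₁, e A₂ hc₂ hl₂] with x k1 k2
    have hx : x ∈ A₁ ∪ A₂ := by rw [hA]; trivial
    have fin : ∀ A : Set X, IsPathConnected A → a ∈ A →
        (∀ x, ∀ γ : Path a x, range γ ⊆ A → T x = .mk (γ.map f.continuous)) →
        x₀ ∈ A ∧ JoinedIn (f ⁻¹' N ∩ A) x₀ x → ∃ δ : Path (f x₀) (f x),
          range δ ⊆ N ∧ T x = (T x₀).trans (.mk δ) := by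
      rintro A hA haA hT ⟨hx₀, δ, hδ⟩
      refine ⟨δ.map f.continuous, ?_, key A hA haA hT x₀ hx₀ x δ ?_⟩
      · rintro _ ⟨t, rfl⟩; exact (hδ t).1
      · rintro _ ⟨t, rfl⟩; exact (hδ t).2
    rcases hx with hx | hx
    · exact fin A₁ hp₁ ha.1 hT1 (k1 hx)
    · exact fin A₂ hp₂ ha.2 hT2 (k2 hx)
  intro x y γ₁ γ₂
  have g1 := local_to_global hW f T hloc γ₁
  have g2 := local_to_global hW f T hloc γ₂
  rw [← Path.Homotopic.Quotient.eq]
  exact (cls_cancel_left _).1 (g1.symm.trans g2)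

/-! ### Subsets of a normed space -/

section Normed

variable {E : Type*} [NormedAddCommGroup E] [NormedSpace ℝ E]

/-- The inclusion. -/
def incl {A R : Set E} (h : A ⊆ R) : C(A, R) := ⟨Set.inclusion h, continuous_inclusion h⟩

theorem lpc_of_locStar {R A : Set E} (hAR : A ⊆ R) (hA : LocStar A) :
    Lpc (Subtype.val ⁻¹' A : Set R) := by
  intro x₀ hx₀ V hV
  obtain ⟨ρ, hρ, hstar⟩ := hA x₀.1 hx₀
  obtain ⟨τ, hτ, hV⟩ := Metric.mem_nhds_iff.1 hV
  have h1 : Metric.ball x₀ (min ρ τ) ∈ 𝓝 x₀ := Metric.ball_mem_nhds _ (lt_min hρ hτ)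
  filter_upwards [h1] with x hx hxA
  have hd : dist x.1 x₀.1 < min ρ τ := hx
  have hmem : ∀ t ∈ Icc (0 : ℝ) 1, x.1 + t • (x₀.1 - x.1) ∈ A :=
    hstar x.1 hxA (hd.trans_le (min_le_left _ _))
  let p : Path x x₀ :=
    ⟨⟨fun t => ⟨x.1 + (t : ℝ) • (x₀.1 - x.1), hAR (hmem t t.2)⟩, by fun_prop⟩,
      Subtype.ext (by simp), Subtype.ext (by simp)⟩
  refine JoinedIn.symm ⟨p, fun t => ⟨hV ?_, hmem t t.2⟩⟩
  change dist (x.1 + (t : ℝ) • (x₀.1 - x.1)) x₀.1 < τ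
  exact (dist_mv _ _ t.2).trans_lt (hd.trans_le (min_le_right _ _))

omit [NormedSpace ℝ E] in
theorem isPathConnected_val {R A : Set E} (hAR : A ⊆ R) (hA : IsPathConnected A) :
    IsPathConnected (Subtype.val ⁻¹' A : Set R) := by
  rw [IsInducing.subtypeVal.isPathConnected_iff, Subtype.image_preimage_coe,
    inter_eq_self_of_subset_right hAR]
  exact hA

omit [NormedSpace ℝ E] in
theorem PiTriv.on_val {R A : Set E} (hAR : A ⊆ R) {f : C(R, W)} (h : PiTriv (f.comp (incl hAR))) :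
    PiTrivOn f (Subtype.val ⁻¹' A : Set R) := by
  refine PiTriv.on ?_
  have := h.comp (Y := (Subtype.val ⁻¹' A : Set R))
    ⟨fun x => ⟨x.1.1, x.2⟩, by fun_prop⟩
  exact this.congr fun x => rfl

/-- The union of two closed, locally star-shaped pieces. -/
theorem piTriv_union_poly (hW : Slsc W) {R A₁ A₂ : Set E} (f : C(R, W)) (hR : A₁ ∪ A₂ = R)
    (hc₁ : IsClosed A₁) (hc₂ : IsClosed A₂) (hl₁ : LocStar A₁) (hl₂ : LocStar A₂)
    (hp₁ : IsPathConnected A₁) (hp₂ : IsPathConnected A₂) (hp : IsPathConnected (A₁ ∩ A₂))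
    (h₁ : PiTriv (f.comp (incl (hR ▸ subset_union_left : A₁ ⊆ R))))
    (h₂ : PiTriv (f.comp (incl (hR ▸ subset_union_right : A₂ ⊆ R)))) : PiTriv f := by
  have s₁ : A₁ ⊆ R := hR ▸ subset_union_left
  have s₂ : A₂ ⊆ R := hR ▸ subset_union_right
  refine piTriv_union hW f (A₁ := Subtype.val ⁻¹' A₁) (A₂ := Subtype.val ⁻¹' A₂) ?_
    (hc₁.preimage continuous_subtype_val) (hc₂.preimage continuous_subtype_val)
    (lpc_of_locStar s₁ hl₁) (lpc_of_locStar s₂ hl₂) (isPathConnected_val s₁ hp₁)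
    (isPathConnected_val s₂ hp₂) ?_ (PiTriv.on_val s₁ h₁) (PiTriv.on_val s₂ h₂)
  · rw [eq_univ_iff_forall]
    intro x
    have : x.1 ∈ A₁ ∪ A₂ := hR ▸ x.2
    exact this
  · rw [← preimage_inter]
    exact isPathConnected_val (inter_subset_left.trans s₁) hp

theorem PiTriv.of_convex {R : Set E} (hR : Convex ℝ R) (hne : R.Nonempty) (f : C(R, W)) :
    PiTriv f := by
  have := hR.contractibleSpace hne
  exact PiTriv.of_simplyConnected f

theorem PiTriv.of_isEmpty [IsEmpty X] (f : C(X, W)) : PiTriv f := fun x => (IsEmpty.false x).elim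

end Normed

end Vale.Agent.P215.H580
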